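import Vale.Agent.P299.H582.Kir.Vf
import Vale.Agent.P299.H720.InvMet

/-!
# P299, INDEX-KIRWAN: derivative of the Jacobian matrices along the torus, Killing equation
-/

open Set MeasureTheory Filter Metric
open scoped Topology ContDiff Manifold ComplexConjugate
open Vale.Agent.P272.K Vale.Agent.P299.D Vale.Agent.P299.H720

set_option linter.unusedSectionVars false

noncomputable section

namespace Vale.Agent.P299.H582

variable {n r : ℕ}

section local_

variable {Φ : (Fin r → ℝ) × Cm n → ℂ} {z : Cm n}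

lemma fderiv_fderiv_snd (hΦ : ContDiffAt ℝ ∞ Φ (0, z)) (ξ : Fin r → ℝ) (u : Cm n) :
    fderiv ℝ (fun y => fderiv ℝ Φ (0, y) (ξ, 0)) z u =
      fderiv ℝ (fderiv ℝ Φ) (0, z) (ξ, 0) (0, u) := by
  have hd : ContDiffAt ℝ ∞ (fderiv ℝ Φ) (0, z) := hΦ.fderiv_right (m := ∞) (by simp)
  have hdd : HasFDerivAt (fderiv ℝ Φ) (fderiv ℝ (fderiv ℝ Φ) (0, z)) (0, z) :=
    (hd.differentiableAt (by simp)).hasFDerivAt
  have hG : HasFDerivAt (fun z => fderiv ℝ Φ (0, z) (ξ, 0))
      (((ContinuousLinearMap.apply ℝ ℂ ((ξ, 0) : (Fin r → ℝ) × Cm n)).comp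
        (fderiv ℝ (fderiv ℝ Φ) (0, z))).comp (ContinuousLinearMap.inr ℝ (Fin r → ℝ) (Cm n))) z := by
    have h1 : HasFDerivAt (fun q => fderiv ℝ Φ q (ξ, 0))
        ((ContinuousLinearMap.apply ℝ ℂ ((ξ, 0) : (Fin r → ℝ) × Cm n)).comp
        (fderiv ℝ (fderiv ℝ Φ) (0, z))) (0, z) :=
      (ContinuousLinearMap.apply ℝ ℂ ((ξ, 0) : (Fin r → ℝ) × Cm n)).hasFDerivAt.comp (0, z) hdd
    exact h1.comp z (hasFDerivAt_prodMk_right 0 z)
  have hsymm : IsSymmSndFDerivAt ℝ Φ (0, z) := hΦ.isSymmSndFDerivAt (by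
    simp only [minSmoothness_of_isRCLikeNormedField]; exact WithTop.coe_le_coe.2 le_top)
  rw [hG.fderiv, hsymm.eq]
  rfl

lemma hasFDerivAt_param (hΦ : ContDiffAt ℝ ∞ Φ (0, z)) (u : Cm n) :
    HasFDerivAt (fun t : Fin r → ℝ => fderiv ℝ Φ (t, z) (0, u))
      (((ContinuousLinearMap.apply ℝ ℂ ((0, u) : (Fin r → ℝ) × Cm n)).comp
        (fderiv ℝ (fderiv ℝ Φ) (0, z))).comp (ContinuousLinearMap.inl ℝ (Fin r → ℝ) (Cm n)))
      0 := by
  have hd : ContDiffAt ℝ ∞ (fderiv ℝ Φ) (0, z) := hΦ.fderiv_right (m := ∞) (by simp)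
  have hdd : HasFDerivAt (fderiv ℝ Φ) (fderiv ℝ (fderiv ℝ Φ) (0, z)) (0, z) :=
    (hd.differentiableAt (by simp)).hasFDerivAt
  have h1 : HasFDerivAt (fun q => fderiv ℝ Φ q (0, u))
      ((ContinuousLinearMap.apply ℝ ℂ ((0, u) : (Fin r → ℝ) × Cm n)).comp
      (fderiv ℝ (fderiv ℝ Φ) (0, z))) ((0 : Fin r → ℝ), z) :=
    (ContinuousLinearMap.apply ℝ ℂ ((0, u) : (Fin r → ℝ) × Cm n)).hasFDerivAt.comp (0, z) hdd
  exact HasFDerivAt.comp (g := fun q => fderiv ℝ Φ q (0, u)) (0 : Fin r → ℝ) h1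
    (hasFDerivAt_prodMk_left (0 : Fin r → ℝ) z)

/-- differentiation of `dz j` in a real parameter -/
lemma hasFDerivAt_dz_param (hΦ : ContDiffAt ℝ ∞ Φ (0, z)) (j : Fin n) :
    ∃ L : (Fin r → ℝ) →L[ℝ] ℂ, HasFDerivAt (fun t => dz j (fun y => Φ (t, y)) z) L 0 ∧
      ∀ ξ, L ξ = dz j (fun y => fderiv ℝ (fun t => Φ (t, y)) 0 ξ) z := by
  have hev : ∀ᶠ q in 𝓝 ((0 : Fin r → ℝ), z), DifferentiableAt ℝ Φ q := by
    have h1 : ∀ᶠ q in 𝓝 ((0 : Fin r → ℝ), z), ContDiffAt ℝ 1 Φ q :=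
      (hΦ.of_le (by simp)).eventually (by simp)
    filter_upwards [h1] with q hq using hq.differentiableAt (by simp)
  have e1 := hasFDerivAt_param hΦ (Pi.single j (1 : ℂ))
  have e2 := hasFDerivAt_param hΦ (Pi.single j Complex.I)
  refine ⟨_, ((e1.sub (e2.const_mul Complex.I)).mul_const (1 / 2 : ℂ)).congr_of_eventuallyEq ?_,
    fun ξ => ?_⟩
  · have hcont : Tendsto (fun t : Fin r → ℝ => (t, z)) (𝓝 0) (𝓝 (0, z)) :=
      (continuous_id.prodMk continuous_const).tendsto (0 : Fin r → ℝ)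
    filter_upwards [hcont.eventually hev] with t ht
    unfold dz
    rw [← fderiv_snd_eq ht, ← fderiv_snd_eq ht]
    simp only [Pi.sub_apply]
    ring
  · have h3 : (fun y => fderiv ℝ (fun t => Φ (t, y)) 0 ξ) =ᶠ[𝓝 z]
        fun y => fderiv ℝ Φ (0, y) (ξ, 0) := by
      have hcont : Tendsto (fun y : Cm n => ((0 : Fin r → ℝ), y)) (𝓝 z) (𝓝 (0, z)) :=
        (continuous_const.prodMk continuous_id).tendsto z
      filter_upwards [hcont.eventually hev] with y hy
      exact (fderiv_fst_eq hy ξ).symm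
    rw [dz_congr h3]
    unfold dz
    rw [fderiv_fderiv_snd hΦ, fderiv_fderiv_snd hΦ]
    simp only [smul_apply, sub_apply, ContinuousLinearMap.comp_apply,
      ContinuousLinearMap.inl_apply, ContinuousLinearMap.apply_apply, smul_eq_mul]
    ring

end local_

variable {Z : Type} [TopologicalSpace Z] [ChartedSpace (Cm n) Z] {w : FormM n Z}
  (T : TorusAct r n Z w)

/-- derivative of the Jacobian matrix of the action at `t = 0` -/
theorem hasFDerivAt_jac {e e' : Chart n Z} {x : Z} (h : At e x) (h' : At e' x) (p i : Fin n) :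
    ∃ L : (Fin r → ℝ) →L[ℝ] ℂ, HasFDerivAt (fun t => jacF (T.a t) e e' x p i) L 0 ∧
      ∀ ξ, L ξ = dz i (fun y => fderiv ℝ (fun t => e' (T.a t (e.symm y))) 0 ξ p) (e x) := by
  have h1 := contDiffAt_pi.1 (act_smooth T h h') p
  obtain ⟨L, hL, hL2⟩ := hasFDerivAt_dz_param h1 i
  refine ⟨L, hL, fun ξ => ?_⟩
  rw [hL2]
  refine dz_congr ?_
  have hcont : Tendsto (fun z : Cm n => ((0 : Fin r → ℝ), z)) (𝓝 (e x)) (𝓝 (0, e x)) :=
    (continuous_const.prodMk continuous_id).tendsto (e x)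
  filter_upwards [hcont.eventually (act_smooth_nhds T h h')] with z hz
  have h3 : DifferentiableAt ℝ (fun q : (Fin r → ℝ) × Cm n => e' (T.a q.1 (e.symm q.2))) (0, z) :=
    hz.differentiableAt (by simp)
  have h2 : DifferentiableAt ℝ (fun t : Fin r → ℝ => e' (T.a t (e.symm z))) 0 :=
    (hasFDerivAt_slice h3).differentiableAt
  rw [(hasFDerivAt_pi'.1 h2.hasFDerivAt p).fderiv]
  rfl

/-- derivative of the Jacobian matrix of the action at `t = 0`, in one chart -/
theorem hasFDerivAt_jac_self {e : Chart n Z} {x : Z} (h : At e x) (p i : Fin n) :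
    ∃ L : (Fin r → ℝ) →L[ℝ] ℂ, HasFDerivAt (fun t => jacF (T.a t) e e x p i) L 0 ∧
      ∀ ξ, L ξ = dz i (fun y => vf T ξ e y p) (e x) := hasFDerivAt_jac T h h p i

/-- derivative of a function in the chart along the orbit -/
theorem hasFDerivAt_orbit {E : Type*} [NormedAddCommGroup E] [NormedSpace ℝ E] {G : Cm n → E}
    {e : Chart n Z} {x : Z} (h : At e x) (hG : DifferentiableAt ℝ G (e x)) :
    ∃ L : (Fin r → ℝ) →L[ℝ] E, HasFDerivAt (fun t => G (e (T.a t x))) L 0 ∧
      ∀ ξ, L ξ = fderiv ℝ G (e x) (vf T ξ e (e x)) := by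
  have h3 : DifferentiableAt ℝ (fun t : Fin r → ℝ => e (T.a t x)) 0 := by
    have h4 := (act_smooth T h h).differentiableAt (by simp)
    have h5 := hasFDerivAt_slice h4
    simp only [h.left_inv] at h5
    exact h5.differentiableAt
  have h0 : e (T.a 0 x) = e x := by rw [T.zero]
  have h7 : DifferentiableAt ℝ G (e (T.a 0 x)) := by rw [h0]; exact hG
  have h8 := HasFDerivAt.comp (g := G) (0 : Fin r → ℝ) h7.hasFDerivAt h3.hasFDerivAt
  refine ⟨_, h8, fun ξ => ?_⟩
  rw [h0]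
  unfold vf
  simp only [h.left_inv]
  rfl

variable [IsManifold 𝓘(ℂ, Cm n) ω Z]

lemma jac_zero {e : Chart n Z} {x : Z} (h : At e x) (p i : Fin n) :
    jacF (T.a 0) e e x p i = if p = i then 1 else 0 := by
  have h1 : T.a 0 = fun x => x := funext T.zero
  rw [h1, jacF_id, jacM_self h, Matrix.one_apply]

/-- **the Killing equation** -/
theorem killing (hw : IsHermitian w) {e : Chart n Z} {x : Z} (h : At e x) (ξ : Fin r → ℝ)
    (i j : Fin n) :
    ∑ p, dz i (fun y => vf T ξ e y p) (e x) * w e (e x) p j +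
      ∑ p, w e (e x) i p * conj (dz j (fun y => vf T ξ e y p) (e x)) +
      fderiv ℝ (fun z => w e z i j) (e x) (vf T ξ e (e x)) = 0 := by
  choose L hL hL2 using fun p i => hasFDerivAt_jac_self T h p i
  choose L' hL' hL2' using fun p q => hasFDerivAt_orbit (r := r) T (G := fun z => w e z p q) h
    ((hw.smooth e x h p q).differentiableAt (by simp))
  have hsrc : ∀ᶠ t in 𝓝 (0 : Fin r → ℝ), At e (T.a t x) := by
    have h1 : ∀ᶠ t in 𝓝 (0 : Fin r → ℝ), T.a t x ∈ e.source := by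
      refine (continuous_orbit T x).continuousAt.eventually_mem (e.open_source.mem_nhds ?_)
      rw [T.zero]; exact h.2
    filter_upwards [h1] with t ht using ⟨h.1, ht⟩
  have hconst : (fun t => ∑ p, ∑ q, jacF (T.a t) e e x p i * w e (e (T.a t x)) p q *
      conj (jacF (T.a t) e e x q j)) =ᶠ[𝓝 0] fun _ => w e (e x) i j := by
    filter_upwards [hsrc] with t ht
    have h1 := IsHolIso.pull hw ⟨T.hol t, T.iso t⟩ h ht
    have h2 := congrFun (congrFun h1 i) j
    rw [← h2, Matrix.mul_apply]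
    simp only [Matrix.mul_apply, Matrix.transpose_apply, Matrix.map_apply, Finset.sum_mul]
    rw [Finset.sum_comm]
  have hder : HasFDerivAt (fun t => ∑ p, ∑ q, jacF (T.a t) e e x p i * w e (e (T.a t x)) p q *
      conj (jacF (T.a t) e e x q j)) _ (0 : Fin r → ℝ) :=
    HasFDerivAt.fun_sum fun p _ => HasFDerivAt.fun_sum fun q _ =>
      ((hL p i).fun_mul (hL' p q)).fun_mul
        (Complex.conjCLE.toContinuousLinearMap.hasFDerivAt.comp (0 : Fin r → ℝ) (hL q j))
  have h1 := (hder.congr_of_eventuallyEq hconst.symm).unique (hasFDerivAt_const _ _)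
  have h2 := DFunLike.congr_fun h1 ξ
  simp only [FunLike.coe_sum, Finset.sum_apply, add_apply, smul_apply, smul_eq_mul, zero_apply,
    ContinuousLinearMap.comp_apply] at h2
  simp only [jac_zero T h, T.zero, hL2, hL2'] at h2
  simp only [Finset.sum_add_distrib, mul_add] at h2
  have e1 : ∑ p : Fin n, ∑ q : Fin n, (if p = i then (1 : ℂ) else 0) * w e (e x) p q *
      (Complex.conjCLE (dz j (fun y => vf T ξ e y q) (e x)) : ℂ) =
      ∑ p, w e (e x) i p * conj (dz j (fun y => vf T ξ e y p) (e x)) := by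
    rw [Finset.sum_eq_single i (fun p _ hp => by simp [hp]) (fun hi => absurd (Finset.mem_univ i) hi)]
    refine Finset.sum_congr rfl fun q _ => ?_
    rw [if_pos rfl, one_mul]
    rfl
  have e2 : ∑ p : Fin n, ∑ q : Fin n, (starRingEnd ℂ) (if q = j then (1 : ℂ) else 0) *
      ((if p = i then (1 : ℂ) else 0) * (fderiv ℝ (fun z => w e z p q) (e x)) (vf T ξ e (e x))) =
      (fderiv ℝ (fun z => w e z i j) (e x)) (vf T ξ e (e x)) := by
    rw [Finset.sum_eq_single i (fun p _ hp => by simp [hp]) (fun hi => absurd (Finset.mem_univ i) hi),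
      Finset.sum_eq_single j (fun p _ hp => by simp [hp]) (fun hi => absurd (Finset.mem_univ j) hi)]
    simp
  have e3 : ∑ p : Fin n, ∑ q : Fin n, (starRingEnd ℂ) (if q = j then (1 : ℂ) else 0) *
      (w e (e x) p q * dz i (fun y => vf T ξ e y p) (e x)) =
      ∑ p, dz i (fun y => vf T ξ e y p) (e x) * w e (e x) p j := by
    refine Finset.sum_congr rfl fun p _ => ?_
    rw [Finset.sum_eq_single j (fun p _ hp => by simp [hp]) (fun hi => absurd (Finset.mem_univ j) hi)]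
    rw [if_pos rfl, map_one, one_mul, mul_comm]
  have h3 : (∑ p, w e (e x) i p * conj (dz j (fun y => vf T ξ e y p) (e x))) +
      ((fderiv ℝ (fun z => w e z i j) (e x)) (vf T ξ e (e x)) +
        ∑ p, dz i (fun y => vf T ξ e y p) (e x) * w e (e x) p j) = 0 := by
    rw [← e1, ← e2, ← e3]
    exact h2
  rw [← h3]
  ring

/-- at a zero of the field `ξ` its linearization is skew for the metric -/
theorem skew_of_zero (hw : IsHermitian w) {e : Chart n Z} {x : Z} (h : At e x) {ξ : Fin r → ℝ}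
    (h0 : vf T ξ e (e x) = 0) (i j : Fin n) :
    ∑ p, dz i (fun y => vf T ξ e y p) (e x) * w e (e x) p j +
      ∑ p, w e (e x) i p * conj (dz j (fun y => vf T ξ e y p) (e x)) = 0 := by
  have h1 := killing T hw h ξ i j
  rw [h0, map_zero, add_zero] at h1
  exact h1

end Vale.Agent.P299.H582
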