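import Vale.Agent.P299.H582.Kir.Main
import Vale.Agent.P299.H582.Kir.Kill

/-!
# P299, INDEX-KIRWAN: first derivatives of the Kirwan field
-/

open Set MeasureTheory Filter Metric
open scoped Topology ContDiff Manifold ComplexConjugate
open Vale.Agent.P272.K Vale.Agent.P299.D

set_option linter.unusedSectionVars false

noncomputable section

namespace Vale.Agent.P299.H582

variable {n r : ℕ} {Z : Type} [TopologicalSpace Z] [ChartedSpace (Cm n) Z] {w : FormM n Z}
  (T : TorusAct r n Z w) [IsManifold 𝓘(ℂ, Cm n) ω Z]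

theorem kv_smooth {f : Fin r → Z → ℝ} (hf : ∀ a, SmoothFn (n := n) (f a)) {e : Chart n Z} {x : Z}
    (h : At e x) : ContDiffAt ℝ ∞ (kv T f e) (e x) := by
  unfold kv
  exact ContDiffAt.sum fun a _ => (hf a e x h).smul (vf_smooth T h _)

theorem kv_change (f : Fin r → Z → ℝ) {e e' : Chart n Z} {x : Z} (h : At e x) (h' : At e' x) :
    kv T f e' (e' x) = (jacM e e' x).mulVec (kv T f e (e x)) := by
  rw [kv_eq T f h, kv_eq T f h']
  exact vf_change T h h' _

/-- the derivative of the Kirwan field at a point where the coefficients are critical -/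
theorem fderiv_kv {f : Fin r → Z → ℝ} (hf : ∀ a, SmoothFn (n := n) (f a)) {e : Chart n Z} {x : Z}
    (h : At e x) (hdf : ∀ a, fderiv ℝ (fun z => f a (e.symm z)) (e x) = 0) :
    fderiv ℝ (kv T f e) (e x) = fderiv ℝ (vf T (fun a => f a x) e) (e x) := by
  have hd : ∀ a, DifferentiableAt ℝ (vf T (Pi.single a (1 : ℝ)) e) (e x) := fun a =>
    (vf_smooth T h _).differentiableAt (by simp)
  have h1 : HasFDerivAt (kv T f e) (∑ a, f a x • fderiv ℝ (vf T (Pi.single a (1 : ℝ)) e) (e x))
      (e x) := by
    unfold kv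
    refine HasFDerivAt.fun_sum fun a _ => ?_
    have h2 : HasFDerivAt (fun z => f a (e.symm z)) (0 : Cm n →L[ℝ] ℝ) (e x) := by
      rw [← hdf a]
      exact ((hf a e x h).differentiableAt (by simp)).hasFDerivAt
    have h3 := h2.fun_smul (hd a).hasFDerivAt
    refine h3.congr_fderiv ?_
    ext v
    simp [h.left_inv]
  have h2 : HasFDerivAt (vf T (fun a => f a x) e)
      (∑ a, f a x • fderiv ℝ (vf T (Pi.single a (1 : ℝ)) e) (e x)) (e x) := by
    have h3 : vf T (fun a => f a x) e = fun z => ∑ a, f a x • vf T (Pi.single a (1 : ℝ)) e z :=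
      funext fun z => vf_sum T _ e z
    rw [h3]
    exact HasFDerivAt.fun_sum fun a _ => (hd a).hasFDerivAt.const_smul (f a x)
  rw [h1.fderiv, h2.fderiv]

lemma fderiv_comp_apply {V : Cm n → Cm n} {z : Cm n} (hV : DifferentiableAt ℝ V z) (p : Fin n)
    (u : Cm n) : fderiv ℝ (fun y => V y p) z u = fderiv ℝ V z u p := by
  rw [(hasFDerivAt_pi'.1 hV.hasFDerivAt p).fderiv]
  rfl

theorem dz_kv {f : Fin r → Z → ℝ} (hf : ∀ a, SmoothFn (n := n) (f a)) {e : Chart n Z} {x : Z}
    (h : At e x) (hdf : ∀ a, fderiv ℝ (fun z => f a (e.symm z)) (e x) = 0) (b p : Fin n) :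
    dz b (fun y => kv T f e y p) (e x) = dz b (fun y => vf T (fun a => f a x) e y p) (e x) := by
  unfold dz
  rw [fderiv_comp_apply ((kv_smooth T hf h).differentiableAt (by simp)),
    fderiv_comp_apply ((kv_smooth T hf h).differentiableAt (by simp)),
    fderiv_comp_apply ((vf_smooth T h _).differentiableAt (by simp)),
    fderiv_comp_apply ((vf_smooth T h _).differentiableAt (by simp)), fderiv_kv T hf h hdf]

theorem dzb_kv {f : Fin r → Z → ℝ} (hf : ∀ a, SmoothFn (n := n) (f a)) {e : Chart n Z} {x : Z}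
    (h : At e x) (hdf : ∀ a, fderiv ℝ (fun z => f a (e.symm z)) (e x) = 0) (b p : Fin n) :
    dzb b (fun y => kv T f e y p) (e x) = 0 := by
  have h1 : dzb b (fun y => kv T f e y p) (e x) =
      dzb b (fun y => vf T (fun a => f a x) e y p) (e x) := by
    unfold dzb
    rw [fderiv_comp_apply ((kv_smooth T hf h).differentiableAt (by simp)),
      fderiv_comp_apply ((kv_smooth T hf h).differentiableAt (by simp)),
      fderiv_comp_apply ((vf_smooth T h _).differentiableAt (by simp)),
      fderiv_comp_apply ((vf_smooth T h _).differentiableAt (by simp)), fderiv_kv T hf h hdf]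
  rw [h1]
  exact dzb_of_holo (differentiableAt_comp_apply ((vf_analytic T h _).differentiableAt) p)

/-- **Everything LOWER needs at a bad point**: the matrix `B p b = ∂_b v^p` of the Kirwan field is
skew for the metric and `Re (i tr B) > 0`. -/
theorem bad_matrix (hw : IsHermitian w) {f : Fin r → Z → ℝ} (hf : ∀ a, SmoothFn (n := n) (f a))
    {e : Chart n Z} {x : Z} (h : At e x) (hv : kv T f e (e x) = 0)
    (hdf : ∀ a, fderiv ℝ (fun z => f a (e.symm z)) (e x) = 0) (i j : Fin n) :
    ∑ p, dz i (fun y => kv T f e y p) (e x) * w e (e x) p j +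
      ∑ p, w e (e x) i p * conj (dz j (fun y => kv T f e y p) (e x)) = 0 := by
  simp only [dz_kv T hf h hdf]
  exact skew_of_zero T hw h (by rw [← kv_eq T f h]; exact hv) i j

end Vale.Agent.P299.H582
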