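import Vale.Agent.P299.H582.Kir.Fun
import Vale.Agent.P272.K.INT.Dens

/-!
# P299, INDEX-KIRWAN: a finite immersive family of weight functions
-/

open Set MeasureTheory Filter Metric
open scoped Topology ContDiff Manifold ComplexConjugate
open Vale.Agent.P272.K Vale.Agent.P299.D

set_option linter.unusedSectionVars false

noncomputable section

namespace Vale.Agent.P299.H582

variable {n r : ℕ} {Z : Type} [TopologicalSpace Z] [ChartedSpace (Cm n) Z]
  {w : FormM n Z}

/-- A finite family of smooth weight functions of the torus action, closed under complex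
conjugation, whose real differentials have no common zero. -/
structure WF (T : TorusAct r n Z w) (M : ℕ) where
  F : Fin M → Z → ℂ
  wt : Fin M → Fin r → ℤ
  smooth : ∀ i, SmC (n := n) (F i)
  law : ∀ i t x, F i (T.a t x) = ch (wt i) t * F i x
  imm : ∀ (e : Chart n Z) (x : Z), At e x → ∀ v : Cm n,
    (∀ i, fderiv ℝ (fun z => F i (e.symm z)) (e x) v = 0) → v = 0
  cjm : ∀ i, ∃ j, (∀ x, F j x = conj (F i x)) ∧ wt j = -wt i

/-- one weight function -/
structure WFun (T : TorusAct r n Z w) where
  F : Z → ℂ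
  wt : Fin r → ℤ
  smooth : SmC (n := n) F
  law : ∀ t x, F (T.a t x) = ch wt t * F x

variable {T : TorusAct r n Z w}

/-- complex conjugate -/
def WFun.cj (G : WFun T) : WFun T where
  F := fun x => conj (G.F x)
  wt := -G.wt
  smooth := G.smooth.conj
  law t x := by rw [G.law, map_mul, ch_conj]

/-- the differential in the chart `e` -/
def WFun.d (G : WFun T) (e : Chart n Z) (z : Cm n) : Cm n →L[ℝ] ℂ :=
  fderiv ℝ (fun z => G.F (e.symm z)) z

/-- the differentials of the functions in `s` have no common zero at `y` -/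
def Good (s : Set (WFun T)) (y : Z) : Prop :=
  ∀ e : Chart n Z, At e y → ∀ v : Cm n, (∀ G ∈ s, G.d e (e y) v = 0) → v = 0

lemma Good.mono {s s' : Set (WFun T)} {y : Z} (h : Good s y) (hs : s ⊆ s') : Good s' y :=
  fun e he v hv => h e he v fun G hG => hv G (hs hG)

variable [IsManifold 𝓘(ℂ, Cm n) ω Z]

/-- derivative of the coordinate change -/
lemma fderiv_chart_change {F : Z → ℂ} (hF : SmC (n := n) F) {e e' : Chart n Z} {x : Z}
    (h : At e x) (h' : At e' x) (v : Cm n) :
    fderiv ℝ (fun z => F (e.symm z)) (e x) v =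
      fderiv ℝ (fun z => F (e'.symm z)) (e' x) (fderiv ℝ (fun z => e' (e.symm z)) (e x) v) := by
  have h1 : (fun y => F (e.symm y)) =ᶠ[𝓝 (e x)] fun y => F (e'.symm (e' (e.symm y))) := by
    filter_upwards [h.nhds_at h'] with z hz
    rw [hz.2.2.left_inv]
  have h2 : e' (e.symm (e x)) = e' x := by rw [h.left_inv]
  have h3 : DifferentiableAt ℝ (fun z => e' (e.symm z)) (e x) :=
    (transition_differentiableAt h h').restrictScalars ℝ
  have h4 : DifferentiableAt ℝ (fun z => F (e'.symm z)) (e' (e.symm (e x))) := by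
    rw [h2]; exact (hF e' x h').differentiableAt (by simp)
  rw [h1.fderiv_eq]
  have h5 := (h4.hasFDerivAt.comp (e x) h3.hasFDerivAt).fderiv
  rw [show (fun y => F (e'.symm (e' (e.symm y)))) =
    (fun z => F (e'.symm z)) ∘ fun z => e' (e.symm z) from rfl, h5, h2]
  rfl

lemma fderiv_transition_comp {e e' : Chart n Z} {x : Z} (h : At e x) (h' : At e' x) (v : Cm n) :
    fderiv ℝ (fun z => e (e'.symm z)) (e' x) (fderiv ℝ (fun z => e' (e.symm z)) (e x) v) = v := by
  have h1 : (fun y => y) =ᶠ[𝓝 (e x)] fun y => e (e'.symm (e' (e.symm y))) := by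
    filter_upwards [h.nhds_at h'] with z hz
    rw [hz.2.2.left_inv, e.right_inv hz.1]
  have h2 : e' (e.symm (e x)) = e' x := by rw [h.left_inv]
  have h3 : DifferentiableAt ℝ (fun z => e' (e.symm z)) (e x) :=
    (transition_differentiableAt h h').restrictScalars ℝ
  have h4 : DifferentiableAt ℝ (fun z => e (e'.symm z)) (e' (e.symm (e x))) := by
    rw [h2]; exact (transition_differentiableAt h' h).restrictScalars ℝ
  have h5 := (h4.hasFDerivAt.comp (e x) h3.hasFDerivAt)
  have h6 : HasFDerivAt (fun y : Cm n => y) (ContinuousLinearMap.id ℝ (Cm n)) (e x) :=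
    hasFDerivAt_id _
  have h7 := (h6.congr_of_eventuallyEq h1.symm).unique h5
  rw [h2] at h7
  exact (DFunLike.congr_fun h7 v).symm

lemma good_of_chart {s : Set (WFun T)} {e : Chart n Z} {x : Z} (h : At e x)
    (hs : ∀ v : Cm n, (∀ G ∈ s, G.d e (e x) v = 0) → v = 0) : Good s x := by
  intro e' h' v hv
  have h1 : fderiv ℝ (fun z => e (e'.symm z)) (e' x) v = 0 := by
    refine hs _ fun G hG => ?_
    have := hv G hG
    unfold WFun.d at this ⊢
    rwa [fderiv_chart_change G.smooth h' h] at this
  have := fderiv_transition_comp h' h v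
  rw [h1, map_zero] at this
  exact this.symm

section
variable [T2Space Z] [CompactSpace Z]

/-- a coordinate times a bump -/
lemma smC_coord (P : INT.Part n Z) (i : Fin P.N) (j : Fin n) :
    SmC (n := n) fun x => (P.ρ i x : ℂ) * (P.e i x) j := by
  intro e x h
  by_cases hx : x ∈ (P.e i).source
  · have h' : At (P.e i) x := ⟨P.mem i, hx⟩
    refine (smC_of_smoothFn (P.smooth i) e x h).mul ?_
    have h1 : ContDiffAt ℝ ∞ (fun z => (P.e i) (e.symm z)) (e x) :=
      ((transition h h').restrict_scalars ℝ).of_le (by exact le_top)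
    exact (contDiffAt_pi.1 h1) j
  · have h1 : x ∉ tsupport (P.ρ i) := fun h2 => hx (P.supp i h2)
    have h2 : ∀ᶠ z in 𝓝 (e x), e.symm z ∈ (tsupport (P.ρ i))ᶜ := by
      apply (e.continuousAt_symm h.mem_target).eventually_mem
      rw [h.left_inv]
      exact (isClosed_tsupport _).isOpen_compl.mem_nhds h1
    refine (contDiffAt_const (c := (0 : ℂ))).congr_of_eventuallyEq ?_
    filter_upwards [h2] with z hz
    rw [image_eq_zero_of_notMem_tsupport hz]
    simp

/-- smooth functions separate tangent vectors -/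
lemma exists_fderiv_ne_zero {e : Chart n Z} {x : Z} (h : At e x) {v : Cm n}
    (hv : ∀ F : Z → ℂ, SmC (n := n) F → fderiv ℝ (fun z => F (e.symm z)) (e x) v = 0) : v = 0 := by
  obtain ⟨P⟩ := INT.exists_part n Z
  have h1 : ∃ i, P.ρ i x ≠ 0 := by
    by_contra hcon
    push Not at hcon
    have := P.sum x
    simp [hcon] at this
  obtain ⟨i, hi⟩ := h1
  have h' : At (P.e i) x := ⟨P.mem i, P.supp i (subset_tsupport _ hi)⟩
  have hτ : DifferentiableAt ℝ (fun z => (P.e i) (e.symm z)) (e x) :=
    (transition_differentiableAt h h').restrictScalars ℝ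
  have h2 : fderiv ℝ (fun z => (P.e i) (e.symm z)) (e x) v = 0 := by
    ext j
    have h3 := hv _ (smC_coord P i j)
    have h4 := hv _ (smC_of_smoothFn (P.smooth i))
    have d1 : DifferentiableAt ℝ (fun z => ((P.ρ i (e.symm z) : ℝ) : ℂ)) (e x) :=
      (smC_of_smoothFn (P.smooth i) e x h).differentiableAt (by simp)
    have d2 : DifferentiableAt ℝ (fun z => (P.e i) (e.symm z) j) (e x) :=
      differentiableAt_pi.1 hτ j
    rw [fderiv_fun_mul d1 d2] at h3
    simp only [add_apply, smul_apply, smul_eq_mul, h4,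
      mul_zero, add_zero, h.left_inv] at h3
    have h5 : fderiv ℝ (fun z => (P.e i) (e.symm z) j) (e x) v = 0 := by
      rcases mul_eq_zero.1 h3 with h6 | h6
      · exact absurd (Complex.ofReal_eq_zero.1 h6) hi
      · exact h6
    rw [Pi.zero_apply, ← h5]
    have h7 := (hasFDerivAt_pi'.1 hτ.hasFDerivAt j).fderiv
    rw [h7]
    rfl
  have := fderiv_transition_comp h h' v
  rw [h2, map_zero] at this
  exact this.symm

variable (T) in
/-- weight functions are immersive at every point -/
lemma good_univ (x : Z) : Good (T := T) Set.univ x := by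
  intro e h v hv
  refine exists_fderiv_ne_zero h fun F hF => ?_
  refine fderiv_eq_zero_of_wavg T hF h v fun l => ?_
  exact hv ⟨wavg T l F, l, wavg_smooth T l hF, wavg_law T l F⟩ (mem_univ _)

variable (T) in
lemma exists_good_finite (x : Z) : ∃ s : Set (WFun T), s.Finite ∧ Good s x := by
  classical
  set e : Chart n Z := chartAt (Cm n) x with he
  have hx : At e x := ⟨chart_mem_atlas _ _, mem_chart_source _ _⟩
  set K : Finset (WFun T) → Submodule ℝ (Cm n) := fun s =>
    ⨅ G ∈ s, LinearMap.ker (G.d e (e x) : Cm n →ₗ[ℝ] ℂ) with hK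
  have hex : ∃ d, ∃ s : Finset (WFun T), Module.finrank ℝ (K s) = d := ⟨_, ∅, rfl⟩
  obtain ⟨s, hs⟩ := Nat.find_spec hex
  refine ⟨s, s.finite_toSet, good_of_chart hx fun v hv => ?_⟩
  have hvK : v ∈ K s := by
    simp only [hK, Submodule.mem_iInf, LinearMap.mem_ker]
    exact fun G hG => hv G hG
  by_contra hv0
  have h1 : ∃ G : WFun T, G.d e (e x) v ≠ 0 := by
    by_contra hcon
    push Not at hcon
    exact hv0 (good_univ T x e hx v fun G _ => hcon G)
  obtain ⟨G, hG⟩ := h1
  have hlt : K (insert G s) < K s := by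
    refine lt_of_le_of_ne ?_ ?_
    · simp only [hK]
      exact biInf_mono fun i hi => Finset.mem_insert_of_mem hi
    · intro heq
      rw [← heq] at hvK
      simp only [hK, Submodule.mem_iInf, LinearMap.mem_ker] at hvK
      exact hG (hvK G (Finset.mem_insert_self G s))
  have h2 := Submodule.finrank_lt_finrank_of_lt hlt
  rw [hs] at h2
  exact Nat.find_min hex h2 ⟨insert G s, rfl⟩

lemma good_nhds {s : Set (WFun T)} (hs : s.Finite) {x : Z} (h : Good s x) :
    ∀ᶠ y in 𝓝 x, Good s y := by
  classical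
  set e : Chart n Z := chartAt (Cm n) x with he
  have hx : At e x := ⟨chart_mem_atlas _ _, mem_chart_source _ _⟩
  set f : Cm n × Cm n → ℝ := fun p => ∑ G ∈ hs.toFinset, ‖G.d e p.1 p.2‖ with hf
  have hcont : ∀ v : Cm n, ContinuousAt f (e x, v) := by
    intro v
    refine tendsto_finsetSum _ fun G _ => ?_
    have h1 : ContinuousAt (G.d e) (e x) :=
      ((G.smooth e x hx).fderiv_right (m := 0) (by simp)).continuousAt
    have h2 : ContinuousAt (fun p : Cm n × Cm n => G.d e p.1 p.2) (e x, v) :=
      (h1.comp (f := fun p : Cm n × Cm n => p.1) continuousAt_fst).clm_apply continuousAt_snd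
    exact h2.norm
  have hpos : ∀ v : Cm n, v ∈ sphere (0 : Cm n) 1 → 0 < f (e x, v) := by
    intro v hv
    by_contra hcon
    have h1 : ∀ G ∈ hs.toFinset, ‖G.d e (e x) v‖ = 0 := by
      have h2 : f (e x, v) = 0 := le_antisymm (not_lt.1 hcon)
        (Finset.sum_nonneg fun G _ => norm_nonneg _)
      exact (Finset.sum_eq_zero_iff_of_nonneg fun G _ => norm_nonneg _).1 h2
    have h3 : v = 0 := h e hx v fun G hG => norm_eq_zero.1 (h1 G (hs.mem_toFinset.2 hG))
    rw [h3] at hv
    simp at hv
  have h1 : ∀ᶠ z in 𝓝 (e x), ∀ v ∈ sphere (0 : Cm n) 1, 0 < f (z, v) := by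
    refine (isCompact_sphere (0 : Cm n) 1).eventually_forall_of_forall_eventually fun v hv => ?_
    exact (hcont v).eventually (lt_mem_nhds (hpos v hv))
  have h2 : ∀ᶠ y in 𝓝 x, (∀ v ∈ sphere (0 : Cm n) 1, 0 < f (e y, v)) ∧ y ∈ e.source :=
    ((e.continuousAt hx.2).eventually h1).and (e.open_source.mem_nhds hx.2)
  filter_upwards [h2] with y hy
  refine good_of_chart (e := e) ⟨hx.1, hy.2⟩ fun v hv => ?_
  by_contra hv0
  have hn : ‖v‖ ≠ 0 := norm_ne_zero_iff.2 hv0
  have h3 := hy.1 ((‖v‖⁻¹ : ℝ) • v) (by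
    rw [mem_sphere_zero_iff_norm, norm_smul, norm_inv, norm_norm, inv_mul_cancel₀ hn])
  have h4 : f (e y, (‖v‖⁻¹ : ℝ) • v) = 0 := by
    simp only [hf]
    refine Finset.sum_eq_zero fun G hG => ?_
    rw [map_smul, hv G (hs.mem_toFinset.1 hG), smul_zero, norm_zero]
  rw [h4] at h3
  exact lt_irrefl _ h3

variable (T) in
/-- **Mostow-Palais**: a finite immersive family of weight functions -/
theorem exists_wf : ∃ M : ℕ, Nonempty (WF T M) := by
  classical
  choose s hs hg using fun x => exists_good_finite T x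
  obtain ⟨t, ht⟩ := isCompact_univ.elim_nhds_subcover (fun x : Z => {y | Good (s x) y})
    (fun x _ => good_nhds (hs x) (hg x))
  set S : Set (WFun T) := ⋃ x ∈ t, s x with hS
  have hSf : S.Finite := t.finite_toSet.biUnion fun x _ => hs x
  have hSg : ∀ y, Good S y := by
    intro y
    obtain ⟨x, hx, hy⟩ := mem_iUnion₂.1 (ht.2 (mem_univ y))
    exact Good.mono hy (subset_biUnion_of_mem (u := fun x => s x) hx)
  set S' : Finset (WFun T) := hSf.toFinset ∪ hSf.toFinset.image WFun.cj with hS'
  refine ⟨S'.card, ⟨{ F := fun i => (S'.equivFin.symm i : WFun T).F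
                      wt := fun i => (S'.equivFin.symm i : WFun T).wt
                      smooth := fun i => (S'.equivFin.symm i : WFun T).smooth
                      law := fun i => (S'.equivFin.symm i : WFun T).law
                      imm := ?_
                      cjm := ?_ }⟩⟩
  · intro e x h v hv
    refine hSg x e h v fun G hG => ?_
    have h1 : G ∈ S' := Finset.mem_union_left _ (hSf.mem_toFinset.2 hG)
    have h2 := hv (S'.equivFin ⟨G, h1⟩)
    rw [Equiv.symm_apply_apply] at h2
    exact h2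
  · intro i
    have h1 : (S'.equivFin.symm i : WFun T).cj ∈ S' := by
      have h2 := (S'.equivFin.symm i).2
      rcases Finset.mem_union.1 h2 with h3 | h3
      · exact Finset.mem_union_right _ (Finset.mem_image_of_mem _ h3)
      · obtain ⟨G, hG, hG'⟩ := Finset.mem_image.1 h3
        rw [← hG']
        refine Finset.mem_union_left _ ?_
        have h4 : G.cj.cj = G := by
          cases G
          simp [WFun.cj]
        rw [h4]; exact hG
    refine ⟨S'.equivFin ⟨_, h1⟩, fun x => ?_, ?_⟩
    · rw [Equiv.symm_apply_apply]; rfl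
    · rw [Equiv.symm_apply_apply]; rfl

end

end Vale.Agent.P299.H582
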