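import Vale.Agent.P299.H582.Kir.Param
import Vale.Agent.P299.H723.D.Stmt

/-!
# P299, INDEX-KIRWAN: weight functions of a torus action
-/

open Set MeasureTheory Filter Metric
open scoped Topology ContDiff Manifold ComplexConjugate
open Vale.Agent.P272.K Vale.Agent.P299.D

set_option linter.unusedSectionVars false

noncomputable section

namespace Vale.Agent.P299.H582

variable {n r : ℕ} {Z : Type} [TopologicalSpace Z] [ChartedSpace (Cm n) Z]

/-- smooth complex valued function on `Z` -/
def SmC (F : Z → ℂ) : Prop :=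
  ∀ (e : Chart n Z) (x : Z), At e x → ContDiffAt ℝ ∞ (fun z => F (e.symm z)) (e x)

lemma SmC.at_target {F : Z → ℂ} (hF : SmC (n := n) F) {e : Chart n Z} (he : e ∈ atlas (Cm n) Z)
    {z : Cm n} (hz : z ∈ e.target) : ContDiffAt ℝ ∞ (fun z => F (e.symm z)) z := by
  have := hF e (e.symm z) (At.of_target he hz)
  rwa [e.right_inv hz] at this

lemma SmC.mul {F G : Z → ℂ} (hF : SmC (n := n) F) (hG : SmC (n := n) G) :
    SmC (n := n) fun x => F x * G x := fun e x h => (hF e x h).mul (hG e x h)

lemma SmC.conj {F : Z → ℂ} (hF : SmC (n := n) F) : SmC (n := n) fun x => conj (F x) := fun e x h => by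
  exact (Complex.conjCLE.contDiff.contDiffAt).comp (e x) (hF e x h)

lemma SmC.continuous {F : Z → ℂ} (hF : SmC (n := n) F) : Continuous F := by
  rw [continuous_iff_continuousAt]
  intro x
  have hx : At (chartAt (Cm n) x : Chart n Z) x := ⟨chart_mem_atlas _ x, mem_chart_source _ x⟩
  have h1 : ContinuousAt (fun y => F ((chartAt (Cm n) x).symm (chartAt (Cm n) x y))) x :=
    (hF _ x hx).continuousAt.comp (f := chartAt (Cm n) x) ((chartAt (Cm n) x).continuousAt hx.2)
  refine h1.congr ?_
  filter_upwards [(chartAt (Cm n) x).open_source.mem_nhds hx.2] with y hy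
  rw [(chartAt (Cm n) x).left_inv hy]

lemma smC_of_smoothFn {u : Z → ℝ} (hu : SmoothFn (n := n) u) : SmC (n := n) fun x => (u x : ℂ) :=
  fun e x h => Complex.ofRealCLM.contDiff.contDiffAt.comp (e x) (hu e x h)

variable {w : FormM n Z}

section act
variable (T : TorusAct r n Z w)

lemma act_cont_at {e : Chart n Z} {z : Cm n} (hz : z ∈ e.target) (t : Fin r → ℝ) :
    ContinuousAt (fun q : (Fin r → ℝ) × Cm n => T.a q.1 (e.symm q.2)) (t, z) := by
  have h1 : ContinuousAt (fun q : (Fin r → ℝ) × Cm n => (q.1, e.symm q.2)) (t, z) :=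
    continuousAt_fst.prodMk ((e.continuousAt_symm hz).comp (f := fun q : (Fin r → ℝ) × Cm n => q.2)
      continuousAt_snd)
  exact T.cont.continuousAt.comp h1

/-- `(t, z) ↦ F (a_t (e⁻¹ z))` is smooth -/
theorem smOn_act {F : Z → ℂ} (hF : SmC (n := n) F) {e : Chart n Z} (he : e ∈ atlas (Cm n) Z) :
    SmOn e.target (fun q : (Fin r → ℝ) × Cm n => F (T.a q.1 (e.symm q.2))) := by
  rintro ⟨t, z⟩ hz
  simp only at hz
  set x := e.symm z with hx
  set e' : Chart n Z := chartAt (Cm n) (T.a t x) with he'
  have hxe : At e x := At.of_target he hz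
  have hye : At e' (T.a t x) := ⟨chart_mem_atlas _ _, mem_chart_source _ _⟩
  have h1 := T.smooth t x e e' hxe hye
  have hex : e x = z := e.right_inv hz
  rw [hex] at h1
  have h2 : ContDiffAt ℝ ∞ (fun y => F (e'.symm y)) (e' (T.a t (e.symm z))) := hF e' _ hye
  have h3 := h2.comp (t, z) (f := fun q : (Fin r → ℝ) × Cm n => e' (T.a q.1 (e.symm q.2))) h1
  refine h3.congr_of_eventuallyEq ?_
  have h4 := (act_cont_at T hz t).eventually (e'.open_source.mem_nhds hye.2)
  filter_upwards [h4] with q hq
  show F (T.a q.1 (e.symm q.2)) = F (e'.symm (e' (T.a q.1 (e.symm q.2))))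
  rw [e'.left_inv hq]

lemma isPer_act {E : Type*} (F : Z → E) (x : Z) : IsPer fun t => F (T.a t x) := by
  intro k t
  simp only
  rw [T.add, T.per]

/-- the component of weight `l` of the function `F` -/
def wavg (l : Fin r → ℤ) (F : Z → ℂ) (x : Z) : ℂ := avg fun t => ch (-l) t * F (T.a t x)

lemma continuous_orbit (x : Z) : Continuous fun t => T.a t x :=
  T.cont.comp (continuous_id.prodMk continuous_const)

theorem wavg_law (l : Fin r → ℤ) (F : Z → ℂ) (s : Fin r → ℝ) (x : Z) :
    wavg T l F (T.a s x) = ch l s * wavg T l F x := by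
  unfold wavg avg
  have h1 : IsPer fun t => ch (-l) t * F (T.a t x) := (isPer_act T F x).mul_ch _
  rw [← h1.integral_add s, ← integral_const_mul]
  congr 1
  funext t
  simp only
  rw [← T.add, ch_add, add_comm s t]
  have h2 := ch_neg_left l s
  linear_combination (-(ch (-l) t * F (T.a (t + s) x))) * h2

theorem wavg_smooth (l : Fin r → ℤ) {F : Z → ℂ} (hF : SmC (n := n) F) :
    SmC (n := n) (wavg T l F) := by
  intro e x h
  have h1 : SmOn e.target (fun q : (Fin r → ℝ) × Cm n => ch (-l) q.1 * F (T.a q.1 (e.symm q.2))) := by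
    intro p hp
    exact (((ch_contDiff (-l)).of_le le_top).contDiffAt.comp p contDiffAt_fst).mul
      (smOn_act T hF h.1 p hp)
  exact contDiffAt_avg e.open_target h1 h.mem_target

theorem fderiv_wavg (l : Fin r → ℤ) {F : Z → ℂ} (hF : SmC (n := n) F) {e : Chart n Z} {x : Z}
    (h : At e x) (v : Cm n) : fderiv ℝ (fun z => wavg T l F (e.symm z)) (e x) v =
      avg fun t => ch (-l) t *
        pd (fun q : (Fin r → ℝ) × Cm n => F (T.a q.1 (e.symm q.2))) (t, e x) v := by
  have h0 := smOn_act T hF h.1
  have h1 : SmOn e.target (fun q : (Fin r → ℝ) × Cm n => ch (-l) q.1 * F (T.a q.1 (e.symm q.2))) := by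
    intro p hp
    exact (((ch_contDiff (-l)).of_le le_top).contDiffAt.comp p contDiffAt_fst).mul (h0 p hp)
  have h2 := hasFDerivAt_avg e.open_target h1 h.mem_target
  have h3 : (fun z => wavg T l F (e.symm z)) =
      fun z => avg fun t => ch (-l) t * F (T.a t (e.symm z)) := rfl
  rw [h3, h2.fderiv]
  have h4 : ∀ t, pd (fun q : (Fin r → ℝ) × Cm n => ch (-l) q.1 * F (T.a q.1 (e.symm q.2))) (t, e x) =
      ch (-l) t • pd (fun q : (Fin r → ℝ) × Cm n => F (T.a q.1 (e.symm q.2))) (t, e x) := by
    intro t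
    have e1 := hasFDerivAt_pd (p := (t, e x)) ((h1 (t, e x) h.mem_target).differentiableAt (by simp))
    have e2 := hasFDerivAt_pd (p := (t, e x)) ((h0 (t, e x) h.mem_target).differentiableAt (by simp))
    exact e1.unique (e2.const_mul (ch (-l) t))
  simp only [h4]
  unfold avg
  have h5 : Continuous fun t : Fin r → ℝ => ch (-l) t •
      pd (fun q : (Fin r → ℝ) × Cm n => F (T.a q.1 (e.symm q.2))) (t, e x) :=
    (ch_continuous _).smul (h0.pd.continuous h.mem_target)
  rw [ContinuousLinearMap.integral_apply (integrable_cube h5)]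
  rfl

/-- if all weight components of `F` have zero derivative in the direction `v` then so does `F` -/
theorem fderiv_eq_zero_of_wavg {F : Z → ℂ} (hF : SmC (n := n) F) {e : Chart n Z} {x : Z}
    (h : At e x) (v : Cm n)
    (h0 : ∀ l : Fin r → ℤ, fderiv ℝ (fun z => wavg T l F (e.symm z)) (e x) v = 0) :
    fderiv ℝ (fun z => F (e.symm z)) (e x) v = 0 := by
  set g : (Fin r → ℝ) → ℂ := fun t =>
    pd (fun q : (Fin r → ℝ) × Cm n => F (T.a q.1 (e.symm q.2))) (t, e x) v with hg
  have hs := smOn_act T hF h.1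
  have hc : Continuous g := (hs.pd.continuous h.mem_target).clm_apply continuous_const
  have hper : IsPer g := by
    intro k t
    have e1 := hasFDerivAt_pd (p := (t + (fun i => (k i : ℝ)), e x))
      ((hs (t + (fun i => (k i : ℝ)), e x) h.mem_target).differentiableAt (by simp))
    have e2 := hasFDerivAt_pd (p := (t, e x)) ((hs (t, e x) h.mem_target).differentiableAt (by simp))
    have e3 : (fun y : Cm n => F (T.a (t + fun i => (k i : ℝ)) (e.symm y))) =
        fun y => F (T.a t (e.symm y)) := by
      funext y; rw [T.add, T.per]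
    have e4 : pd (fun q : (Fin r → ℝ) × Cm n => F (T.a q.1 (e.symm q.2)))
        (t + (fun i => (k i : ℝ)), e x) = pd (fun q : (Fin r → ℝ) × Cm n =>
          F (T.a q.1 (e.symm q.2))) (t, e x) := by
      refine HasFDerivAt.unique (f := fun y => F (T.a t (e.symm y))) (x := e x) ?_ e2
      exact e1.congr_of_eventuallyEq (Eventually.of_forall fun y => (congrFun e3 y).symm)
    simp only [hg, e4]
  have hz : ∀ l : Fin r → ℤ, ∫ t in cube (0 : Fin r → ℝ), ch l t * g t = 0 := by
    intro l
    have := h0 (-l)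
    rw [fderiv_wavg T (-l) hF h v] at this
    simp only [neg_neg] at this
    exact this
  have h1 := hper.eq_zero hc hz 0
  have e2 := hasFDerivAt_pd (p := ((0 : Fin r → ℝ), e x))
    ((hs (0, e x) h.mem_target).differentiableAt (by simp))
  have e5 : (fun y : Cm n => F (T.a 0 (e.symm y))) = fun y => F (e.symm y) := by
    funext y; rw [T.zero]
  simp only at e2
  rw [e5] at e2
  rw [e2.fderiv]
  exact h1

end act

end Vale.Agent.P299.H582
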