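import Vale.Agent.P299.H582.Kir.Mom

/-!
# P299, INDEX-KIRWAN: the Kirwan field and the invariant sections
-/

open Set MeasureTheory Filter Metric
open scoped Topology ContDiff Manifold ComplexConjugate ComplexOrder
open Vale.Agent.P272.K Vale.Agent.P299.D Vale.Agent.P299.H800.Kir

set_option linter.unusedSectionVars false

noncomputable section

namespace Vale.Agent.P299.H582

variable {n r : ℕ} {Z : Type} [TopologicalSpace Z] [ChartedSpace (Cm n) Z] {w : FormM n Z}

/-- the vector field `∑ f_a ξ_a` -/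
def kv (T : TorusAct r n Z w) (f : Fin r → Z → ℝ) : VField n Z := fun e z =>
  ∑ a, f a (e.symm z) • vf T (Pi.single a 1) e z

lemma kv_eq (T : TorusAct r n Z w) (f : Fin r → Z → ℝ) {e : Chart n Z} {x : Z} (h : At e x) :
    kv T f e (e x) = vf T (fun a => f a x) e (e x) := by
  unfold kv
  rw [vf_sum T (fun a => f a x) e (e x)]
  simp only [h.left_inv]

section smooth

lemma SmoothFn.congr_fun {u u' : Z → ℝ} (h : ∀ x, u x = u' x) (hu : SmoothFn (n := n) u) :
    SmoothFn (n := n) u' := by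
  rw [← funext h]; exact hu

lemma smoothFn_chi {μ : Z → Fin r → ℝ} {q : (Fin r → ℝ) → Z → ℝ}
    (hμ : ∀ a, SmoothFn (n := n) fun x => μ x a) (hq : ∀ β, SmoothFn (n := n) (q β))
    (ε : (Fin r → ℝ) → ℝ) (β : Fin r → ℝ) : SmoothFn (n := n) (chi μ q ε β) := by
  intro e x h
  unfold chi gfun sq ip
  have h1 : ContDiffAt ℝ ∞ (fun z => ∑ i, (μ (e.symm z) - β) i * (μ (e.symm z) - β) i) (e x) :=
    ContDiffAt.sum fun i _ => by
      have h2 : ContDiffAt ℝ ∞ (fun z => (μ (e.symm z) - β) i) (e x) :=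
        (hμ i e x h).sub contDiffAt_const
      exact h2.mul h2
  have h3 := contDiffAt_const (c := (1 : ℝ)).sub ((h1.add (hq β e x h)).div_const (ε β))
  exact Real.smoothTransition.contDiff.contDiffAt.comp (e x) h3

lemma smoothFn_ffun {μ : Z → Fin r → ℝ} {q : (Fin r → ℝ) → Z → ℝ}
    (hμ : ∀ a, SmoothFn (n := n) fun x => μ x a) (hq : ∀ β, SmoothFn (n := n) (q β))
    (ε : (Fin r → ℝ) → ℝ) (B : Finset (Fin r → ℝ)) (a : Fin r) :
    SmoothFn (n := n) fun x => ffun μ q B ε x a := by
  intro e x h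
  have h1 : (fun z => ffun μ q B ε (e.symm z) a) = fun z => μ (e.symm z) a +
      ∑ β ∈ B, chi μ q ε β (e.symm z) * (β a - μ (e.symm z) a) := by
    funext z
    unfold ffun
    simp [Finset.sum_apply]
  rw [h1]
  exact (hμ a e x h).add (ContDiffAt.sum fun β _ =>
    (smoothFn_chi hμ hq ε β e x h).mul (contDiffAt_const.sub (hμ a e x h)))

/-- the derivative of the field at the points where exactly one cut off function is `1` and the
others vanish -/
lemma fderiv_ffun {μ : Z → Fin r → ℝ} {q : (Fin r → ℝ) → Z → ℝ}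
    (hμ : ∀ a, SmoothFn (n := n) fun x => μ x a) (hq : ∀ β, SmoothFn (n := n) (q β))
    {ε : (Fin r → ℝ) → ℝ} {B : Finset (Fin r → ℝ)} {β₀ : Fin r → ℝ} (h0 : β₀ ∈ B)
    {e : Chart n Z} {x : Z} (h : At e x) (h1 : chi μ q ε β₀ x = 1)
    (h2 : ∀ β ∈ B, β ≠ β₀ → chi μ q ε β x = 0) (a : Fin r) :
    fderiv ℝ (fun z => ffun μ q B ε (e.symm z) a) (e x) = 0 := by
  have hchi : ∀ β ∈ B, HasFDerivAt (fun z => chi μ q ε β (e.symm z)) (0 : Cm n →L[ℝ] ℝ) (e x) := by
    intro β hβ
    have hd : DifferentiableAt ℝ (fun z => chi μ q ε β (e.symm z)) (e x) :=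
      (smoothFn_chi hμ hq ε β e x h).differentiableAt (by simp)
    have hz : fderiv ℝ (fun z => chi μ q ε β (e.symm z)) (e x) = 0 := by
      by_cases hne : β = β₀
      · refine IsLocalMax.fderiv_eq_zero (Eventually.of_forall fun z => ?_)
        show chi μ q ε β (e.symm z) ≤ chi μ q ε β (e.symm (e x))
        rw [h.left_inv, hne, h1]
        exact chi_le_one _ _ _
      · refine IsLocalMin.fderiv_eq_zero (Eventually.of_forall fun z => ?_)
        show chi μ q ε β (e.symm (e x)) ≤ chi μ q ε β (e.symm z)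
        rw [h.left_inv, h2 β hβ hne]
        exact chi_nonneg _ _ _
    rw [← hz]
    exact hd.hasFDerivAt
  have hm : HasFDerivAt (fun z => μ (e.symm z) a) (fderiv ℝ (fun z => μ (e.symm z) a) (e x)) (e x) :=
    ((hμ a e x h).differentiableAt (by simp)).hasFDerivAt
  have h3 : (fun z => ffun μ q B ε (e.symm z) a) = fun z => μ (e.symm z) a +
      ∑ β ∈ B, chi μ q ε β (e.symm z) * (β a - μ (e.symm z) a) := by
    funext z
    unfold ffun
    simp [Finset.sum_apply]
  rw [h3]
  have h4 : HasFDerivAt (fun z => μ (e.symm z) a +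
      ∑ β ∈ B, chi μ q ε β (e.symm z) * (β a - μ (e.symm z) a)) _ (e x) :=
    hm.fun_add (HasFDerivAt.fun_sum (u := B) fun β hβ =>
      (hchi β hβ).fun_mul ((hasFDerivAt_const (β a) (e x)).fun_sub hm))
  rw [h4.fderiv]
  rw [Finset.sum_eq_single β₀]
  · rw [h.left_inv, h1]
    simp
  · intro β hβ hne
    rw [h.left_inv, h2 β hβ hne]
    simp
  · exact fun h' => absurd h0 h'

end smooth

variable [T2Space Z] [CompactSpace Z] [IsManifold 𝓘(ℂ, Cm n) ω Z]

/-- **INDEX-KIRWAN.** -/
theorem kirwan (hw : IsHermitian w) (T : TorusAct r n Z w) :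
    ∃ (f : Fin r → Z → ℝ) (K0 N : ℕ), 1 ≤ K0 ∧ (∀ a, SmoothFn (n := n) (f a)) ∧
      (∀ a t x, f a (T.a t x) = f a x) ∧
      ∀ c : ℕ, ∃ s : Fin N → Chart n Z → Cm n → ℂ, (∀ j, Wsec T (c * K0) 0 (s j)) ∧
        ∀ e x, At e x → (∃ j, s j e (e x) ≠ 0) ∨ kv T f e (e x) ≠ 0 ∨
          ((∀ j, ∀ᶠ z in 𝓝 (e x), s j e z = 0) ∧ kv T f e (e x) = 0 ∧
            (∀ a, fderiv ℝ (fun z => f a (e.symm z)) (e x) = 0) ∧
            0 < ∑ a, f a x * momc T (Pi.single a 1) e (e x) ∧
            0 < (Complex.I * ∑ l, dz l (fun y => vf T (fun a => f a x) e y l) (e x)).re) := by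
  classical
  obtain ⟨M, ⟨W⟩⟩ := exists_wf T
  set B : Finset (Fin r → ℝ) := (finite_values W hw).toFinset with hB
  have hBm : ∀ x, mu W x ∈ tx T x → mu W x ∈ B := fun x hx => by
    rw [hB, Set.Finite.mem_toFinset]
    exact ⟨x, rfl, hx⟩
  obtain ⟨ε, hε, hF⟩ := exists_field (t := tx T) (μ := mu W) (q := qf W) (finite_tx T W)
    (mu_continuous W hw) (fun β => smoothFn_continuous (qf_smooth W β)) (qf_nonneg W)
    (qf_eq_zero W) (mu_loc W hw) B hBm
  set F : Z → Fin r → ℝ := ffun (mu W) (qf W) B ε with hFdef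
  have hFs : ∀ a, SmoothFn (n := n) fun x => F x a := fun a =>
    smoothFn_ffun (mu_smooth W hw) (qf_smooth W) ε B a
  have hFc : Continuous F := continuous_pi fun a => smoothFn_continuous (hFs a)
  have hFinv : ∀ t x, F (T.a t x) = F x := by
    intro t x
    rw [hFdef]
    unfold ffun chi gfun
    simp only [mu_inv W hw, qf_inv W]
  have hkv : ∀ (e : Chart n Z) (x : Z), At e x →
      (kv T (fun a x => F x a) e (e x) = 0 ↔ F x ∈ tx T x) := by
    intro e x h
    rw [kv_eq T _ h, mem_tx_iff T W]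
    exact vf_eq_zero_iff W h (F x)
  -- the sections
  have hC : IsClosed {x | F x = 0} := isClosed_eq hFc continuous_const
  obtain ⟨K0, hK0, N, s, hs, hsC⟩ := exists_inv hw W hC (by
    intro x hx
    have hx0 : F x = 0 := hx
    obtain ⟨I, hI⟩ := exists_pw_ne W hw x
    have hxe : At (chartAt (Cm n) x : Chart n Z) x := ⟨chart_mem_atlas _ _, mem_chart_source _ _⟩
    refine ⟨chartAt (Cm n) x, I, hxe, (pw_ne W hw I hxe).1 hI, fun ξ hξ => ?_⟩
    have hξt : ξ ∈ tx T x := (mem_tx_iff T W x ξ).2 hξ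
    obtain ⟨-, -, -, h4⟩ := hF x (by rw [hx0]; exact (tx T x).zero_mem)
    have h5 := h4 ξ hξt
    rw [hx0, ip_mu_eq W hw hξt hI] at h5
    have h6 : ip (0 : Fin r → ℝ) ξ = 0 := by simp [ip]
    rw [h6, neg_eq_zero] at h5
    rcases mul_eq_zero.1 h5 with h7 | h7
    · exact absurd h7 (by positivity)
    · exact h7)
  -- the cut off
  obtain ⟨b, hb, hbB⟩ : ∃ b : ℝ, 0 < b ∧ ∀ β ∈ B, β ≠ 0 → b < sq β := by
    have h1 : ∀ᶠ b in 𝓝[>] (0 : ℝ), ∀ β ∈ B, β ≠ 0 → b < sq β := by
      rw [Finset.eventually_all]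
      intro β _
      by_cases hβ : β = 0
      · exact Eventually.of_forall fun _ h => absurd hβ h
      · have h2 : 0 < sq β := lt_of_le_of_ne (sq_nonneg' β) fun h => hβ (sq_eq_zero'.1 h.symm)
        filter_upwards [mem_nhdsWithin_of_mem_nhds (gt_mem_nhds h2)] with b hb _ using hb
    obtain ⟨b, hb1, hb2⟩ := (h1.and self_mem_nhdsWithin).exists
    exact ⟨b, hb2, hb1⟩
  set θ : Z → ℝ := fun x => Real.smoothTransition (1 - sq (F x) / b) with hθ
  have hθs : SmoothFn (n := n) θ := by
    intro e x h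
    have h1 : ContDiffAt ℝ ∞ (fun z => ∑ i, F (e.symm z) i * F (e.symm z) i) (e x) :=
      ContDiffAt.sum fun i _ => (hFs i e x h).mul (hFs i e x h)
    exact Real.smoothTransition.contDiff.contDiffAt.comp (e x)
      (contDiffAt_const.sub (h1.div_const b))
  refine ⟨fun a x => F x a, K0, N, hK0, hFs, fun a t x => congrFun (hFinv t x) a, fun c =>
    ⟨fun j e z => ((θ (e.symm z) : ℝ) : ℂ) * s j e z ^ c, fun j => ?_, fun e x h => ?_⟩⟩
  · have h1 := ((hs j).pow c).fmul (χ := fun x => ((θ x : ℝ) : ℂ))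
      (smC_of_smoothFn hθs) (fun t x => by rw [hθ]; simp only [hFinv])
    rw [smul_zero] at h1
    exact h1
  · by_cases hv : kv T (fun a x => F x a) e (e x) = 0
    · have hx : F x ∈ tx T x := (hkv e x h).1 hv
      obtain ⟨g1, g2, g3, g4⟩ := hF x hx
      by_cases h0 : F x = 0
      · left
        obtain ⟨j, hj⟩ := hsC x h0
        refine ⟨j, ?_⟩
        simp only
        rw [h.left_inv]
        have h1 : θ x = 1 := by
          rw [hθ]
          simp only [h0]
          rw [sq_eq_zero'.2 rfl, zero_div, sub_zero]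
          exact Real.smoothTransition.one_of_one_le le_rfl
        rw [h1, Complex.ofReal_one, one_mul]
        exact pow_ne_zero _ (hj e h)
      · right; right
        have hsqpos : b < sq (F x) := hbB _ g1 h0
        have hm : momc T (F x) e (e x) = sq (F x) := by
          rw [momc_eq_ip W hw h hx, g4 _ hx]; rfl
        refine ⟨fun j => ?_, hv, fun a => ?_, ?_, ?_⟩
        · have h2 : ContinuousAt (fun z => sq (F (e.symm z))) (e x) := by
            refine (continuous_sq.comp hFc).continuousAt.comp ?_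
            exact e.continuousAt_symm h.mem_target
          have h3 : b < sq (F (e.symm (e x))) := by rw [h.left_inv]; exact hsqpos
          filter_upwards [h2.eventually (lt_mem_nhds h3)] with z hz
          have h4 : θ (e.symm z) = 0 := by
            rw [hθ]
            refine Real.smoothTransition.zero_of_nonpos ?_
            have : 1 ≤ sq (F (e.symm z)) / b := (one_le_div hb).2 hz.le
            linarith
          rw [h4, Complex.ofReal_zero, zero_mul]
        · exact fderiv_ffun (mu_smooth W hw) (qf_smooth W) g1 h g2 g3 a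
        · rw [← momc_sum T h (F x), hm]
          exact hb.trans hsqpos
        · have h5 : vf T (F x) e (e x) = 0 := by
            rw [← kv_eq T (fun a x => F x a) h]; exact hv
          have h6 : (Complex.I * ∑ l, dz l (fun y => vf T (F x) e y l) (e x)).re =
              momc T (F x) e (e x) := by
            unfold momc
            rw [divw_of_zero T h5]
          have h7 : 0 < (Complex.I * ∑ l, dz l (fun y => vf T (F x) e y l) (e x)).re := by
            rw [h6, hm]
            exact hb.trans hsqpos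
          exact h7
    · right; left
      exact hv

end Vale.Agent.P299.H582
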