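import Vale.Agent.P299.H582.Kir.Vf
import Vale.Agent.P299.H582.Kir.Field
import Vale.Agent.P299.H800.Kir.Lat

/-!
# P299, INDEX-KIRWAN: moment map and invariant replacement of the moment map
-/

open Set MeasureTheory Filter Metric
open scoped Topology ContDiff Manifold ComplexConjugate ComplexOrder
open Vale.Agent.P272.K Vale.Agent.P299.D Vale.Agent.P299.H800.Kir

set_option linter.unusedSectionVars false

noncomputable section

namespace Vale.Agent.P299.H582

variable {n r : ℕ} {Z : Type} [TopologicalSpace Z] [ChartedSpace (Cm n) Z] {w : FormM n Z}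

/-- the trace of the covariant derivative of the `(1,0)` field `v` -/
def divw (w : FormM n Z) (v : VField n Z) (e : Chart n Z) (z : Cm n) : ℂ :=
  ∑ l, dz l (fun y => v e y l) z + ∑ l, v e z l * dz l (fun y => (Real.log (w e y).det.re : ℂ)) z

/-- the moment map of the action on `-K`, computed in the chart `e` -/
def momc (T : TorusAct r n Z w) (ξ : Fin r → ℝ) (e : Chart n Z) (z : Cm n) : ℝ :=
  (Complex.I * divw w (vf T ξ) e z).re

variable [IsManifold 𝓘(ℂ, Cm n) ω Z] (T : TorusAct r n Z w)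

lemma vf_diff {e : Chart n Z} {x : Z} (h : At e x) (ξ : Fin r → ℝ) (l : Fin n) :
    DifferentiableAt ℝ (fun y => vf T ξ e y l) (e x) :=
  differentiableAt_pi.1 ((vf_smooth T h ξ).differentiableAt (by simp)) l

lemma dz_vf_sum {e : Chart n Z} {x : Z} (h : At e x) (ξ : Fin r → ℝ) (l : Fin n) :
    dz l (fun y => vf T ξ e y l) (e x) =
      ∑ a, (ξ a : ℂ) * dz l (fun y => vf T (Pi.single a 1) e y l) (e x) := by
  have h1 : (fun y => vf T ξ e y l) = fun y => ∑ a, (ξ a : ℂ) * vf T (Pi.single a 1) e y l := by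
    funext y
    rw [vf_sum T ξ e y]
    simp [Finset.sum_apply]
  rw [h1, dz_sum _ fun a _ => (vf_diff T h _ l).const_mul _]
  exact Finset.sum_congr rfl fun a _ => dz_const_mul _ (vf_diff T h _ l)

lemma divw_vf_sum {e : Chart n Z} {x : Z} (h : At e x) (ξ : Fin r → ℝ) :
    divw w (vf T ξ) e (e x) = ∑ a, (ξ a : ℂ) * divw w (vf T (Pi.single a 1)) e (e x) := by
  unfold divw
  simp only [mul_add, Finset.sum_add_distrib, Finset.mul_sum]
  congr 1
  · rw [Finset.sum_comm]
    exact Finset.sum_congr rfl fun l _ => dz_vf_sum T h ξ l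
  · rw [Finset.sum_comm]
    refine Finset.sum_congr rfl fun l _ => ?_
    rw [vf_sum T ξ e (e x), Finset.sum_apply, Finset.sum_mul]
    refine Finset.sum_congr rfl fun a _ => ?_
    rw [Pi.smul_apply, Complex.real_smul]
    ring

lemma momc_sum {e : Chart n Z} {x : Z} (h : At e x) (ξ : Fin r → ℝ) :
    momc T ξ e (e x) = ∑ a, ξ a * momc T (Pi.single a 1) e (e x) := by
  unfold momc
  rw [divw_vf_sum T h ξ, Finset.mul_sum, Complex.re_sum]
  refine Finset.sum_congr rfl fun a _ => ?_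
  rw [← Complex.re_ofReal_mul]
  congr 1
  ring

lemma divw_of_zero {e : Chart n Z} {x : Z} {ξ : Fin r → ℝ} (h0 : vf T ξ e (e x) = 0) :
    divw w (vf T ξ) e (e x) = ∑ l, dz l (fun y => vf T ξ e y l) (e x) := by
  unfold divw
  rw [h0]
  simp

variable {T} {M : ℕ} (W : WF T M)

/-- the value of the moment map on the isotropy algebra -/
theorem momc_of_zero {e : Chart n Z} {x : Z} (h : At e x) {ξ : Fin r → ℝ}
    (h0 : vf T ξ e (e x) = 0) {I : Fin n → Fin M} (hI : tau W I e (e x) ≠ 0) :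
    momc T ξ e (e x) = -(2 * Real.pi * pair (lamI W I) ξ) := by
  unfold momc
  rw [divw_of_zero T h0]
  have hX : ∀ᶠ y in 𝓝 (e x), DifferentiableAt ℂ (vf T ξ e) y := by
    filter_upwards [(vf_analytic T h ξ).eventually_analyticAt] with y hy using hy.differentiableAt
  have hc : ∀ i, ∀ᶠ y in 𝓝 (e x), fderiv ℝ (fun z => W.F i (e.symm z)) y (vf T ξ e y) =
      (2 * Real.pi * Complex.I * (pair (W.wt i) ξ : ℝ)) * W.F i (e.symm y) := by
    intro i
    filter_upwards [e.open_target.mem_nhds h.mem_target] with y hy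
    have h1 := fderiv_weight T (W.smooth i) (W.law i) (At.of_target h.1 hy) ξ
    rw [e.right_inv hy] at h1
    exact h1
  rw [trace_vf W h hX h0 hc hI]
  have h2 : Complex.I * (2 * Real.pi * Complex.I * (pair (lamI W I) ξ : ℝ)) =
      ((-(2 * Real.pi * pair (lamI W I) ξ) : ℝ) : ℂ) := by
    push_cast
    linear_combination (2 * Real.pi * (pair (lamI W I) ξ : ℝ) : ℂ) * Complex.I_mul_I
  rw [h2, Complex.ofReal_re]

/-! ### the invariant weights -/

lemma posDef_det_re' {g : Matrix (Fin n) (Fin n) ℂ} (hg : g.PosDef) :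
    0 < g.det.re ∧ g.det.im = 0 := by
  have := hg.det_pos
  rw [Complex.lt_def] at this
  exact ⟨this.1, this.2.symm⟩

/-- the function `|∂F_{I 1} ∧ … ∧ ∂F_{I n}|²` -/
def pw (I : Fin n → Fin M) (x : Z) : ℝ :=
  Complex.normSq (tau W I (chartAt (Cm n) x) (chartAt (Cm n) x x)) /
    (w (chartAt (Cm n) x) (chartAt (Cm n) x x)).det.re

lemma det_re_pos (hw : IsHermitian w) {e : Chart n Z} {x : Z} (h : At e x) :
    0 < (w e (e x)).det.re := (posDef_det_re' (hw.posDef e x h)).1

lemma pw_map (hw : IsHermitian w) (I : Fin n → Fin M) (t : Fin r → ℝ) {e e' : Chart n Z} {x : Z}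
    (h : At e x) (h' : At e' (T.a t x)) :
    Complex.normSq (tau W I e (e x)) / (w e (e x)).det.re =
      Complex.normSq (tau W I e' (e' (T.a t x))) / (w e' (e' (T.a t x))).det.re := by
  have h1 := congrArg Complex.normSq (tau_law W I t h h')
  rw [map_mul, map_mul, Complex.normSq_eq_norm_sq (ch _ _), ch_norm, one_pow, one_mul] at h1
  have h2 := det_w_map hw T t h h'
  have h3 : (w e (e x)).det.re = Complex.normSq (jacF (T.a t) e e' x).det *
      (w e' (e' (T.a t x))).det.re := by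
    have h4 : (w e' (e' (T.a t x))).det = ((w e' (e' (T.a t x))).det.re : ℂ) := by
      apply Complex.ext
      · simp
      · rw [Complex.ofReal_im]
        exact (posDef_det_re' (hw.posDef e' _ h')).2
    rw [h2, mul_right_comm]
    have h5 : (jacF (T.a t) e e' x).det * cj (jacF (T.a t) e e' x).det =
        (Complex.normSq (jacF (T.a t) e e' x).det : ℂ) := Complex.mul_conj _
    rw [h5, h4, ← Complex.ofReal_mul, Complex.ofReal_re]
    simp
  have hJ : Complex.normSq (jacF (T.a t) e e' x).det ≠ 0 := by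
    rw [Ne, Complex.normSq_eq_zero]
    exact jacF_det_ne T t h h'
  rw [h1, h3, mul_comm (Complex.normSq (jacF (T.a t) e e' x).det), mul_div_mul_right _ _ hJ]

lemma pw_eq (hw : IsHermitian w) (I : Fin n → Fin M) {e : Chart n Z} {x : Z} (h : At e x) :
    pw W I x = Complex.normSq (tau W I e (e x)) / (w e (e x)).det.re := by
  have h' : At e (T.a 0 x) := by rw [T.zero]; exact h
  have h1 := pw_map W hw I 0 (⟨chart_mem_atlas _ _, mem_chart_source _ _⟩ :
    At (chartAt (Cm n) x : Chart n Z) x) h'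
  rw [T.zero] at h1
  exact h1

lemma pw_inv (hw : IsHermitian w) (I : Fin n → Fin M) (t : Fin r → ℝ) (x : Z) :
    pw W I (T.a t x) = pw W I x := by
  have hx : At (chartAt (Cm n) x : Chart n Z) x := ⟨chart_mem_atlas _ _, mem_chart_source _ _⟩
  have hy : At (chartAt (Cm n) (T.a t x) : Chart n Z) (T.a t x) :=
    ⟨chart_mem_atlas _ _, mem_chart_source _ _⟩
  rw [pw_eq W hw I hx, pw_eq W hw I hy]
  exact (pw_map W hw I t hx hy).symm

lemma pw_smooth (hw : IsHermitian w) (I : Fin n → Fin M) : SmoothFn (n := n) (pw W I) := by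
  intro e x h
  have h1 : (fun z => pw W I (e.symm z)) =ᶠ[𝓝 (e x)]
      fun z => Complex.normSq (tau W I e z) / (w e z).det.re := by
    filter_upwards [e.open_target.mem_nhds h.mem_target] with z hz
    rw [pw_eq W hw I (At.of_target h.1 hz), e.right_inv hz]
  refine ContDiffAt.congr_of_eventuallyEq ?_ h1
  have h2 : ContDiffAt ℝ ∞ (fun z => (w e z).det) (e x) :=
    contDiffAt_det fun i j => hw.smooth e x h i j
  have h3 : ContDiffAt ℝ ∞ (fun z => (w e z).det.re) (e x) :=
    Complex.reCLM.contDiff.contDiffAt.comp (e x) h2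
  have h4 : ContDiffAt ℝ ∞ (fun z => Complex.normSq (tau W I e z)) (e x) := by
    have h5 := tau_smooth W I h
    have h6 : (fun z => Complex.normSq (tau W I e z)) =
        fun z => (tau W I e z).re * (tau W I e z).re + (tau W I e z).im * (tau W I e z).im :=
      funext fun z => Complex.normSq_apply _
    rw [h6]
    have h7 : ContDiffAt ℝ ∞ (fun z => (tau W I e z).re) (e x) :=
      Complex.reCLM.contDiff.contDiffAt.comp (e x) h5
    have h8 : ContDiffAt ℝ ∞ (fun z => (tau W I e z).im) (e x) :=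
      Complex.imCLM.contDiff.contDiffAt.comp (e x) h5
    exact (h7.mul h7).add (h8.mul h8)
  exact h4.div h3 (det_re_pos hw h).ne'

lemma pw_nonneg (hw : IsHermitian w) (I : Fin n → Fin M) (x : Z) : 0 ≤ pw W I x := by
  rw [pw_eq W hw I (⟨chart_mem_atlas _ _, mem_chart_source _ _⟩ :
    At (chartAt (Cm n) x : Chart n Z) x)]
  exact div_nonneg (Complex.normSq_nonneg _)
    (det_re_pos hw ⟨chart_mem_atlas _ _, mem_chart_source _ _⟩).le

lemma pw_ne (hw : IsHermitian w) (I : Fin n → Fin M) {e : Chart n Z} {x : Z} (h : At e x) :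
    pw W I x ≠ 0 ↔ tau W I e (e x) ≠ 0 := by
  rw [pw_eq W hw I h, div_ne_zero_iff, Ne, Complex.normSq_eq_zero]
  exact ⟨fun h => h.1, fun h' => ⟨h', (det_re_pos hw h).ne'⟩⟩

lemma pw_sum_pos (hw : IsHermitian w) (x : Z) : 0 < ∑ I, pw W I x := by
  have hx : At (chartAt (Cm n) x : Chart n Z) x := ⟨chart_mem_atlas _ _, mem_chart_source _ _⟩
  obtain ⟨I, hI⟩ := exists_tau_ne W hx
  have h1 := (pw_ne W hw I hx).2 hI
  exact Finset.sum_pos' (fun I _ => pw_nonneg W hw I x)
    ⟨I, Finset.mem_univ I, lt_of_le_of_ne (pw_nonneg W hw I x) h1.symm⟩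

/-- the invariant replacement of the moment map -/
def mu (x : Z) (a : Fin r) : ℝ :=
  (∑ I, pw W I x * (-(2 * Real.pi * (lamI W I a : ℝ)))) / ∑ I, pw W I x

lemma mu_smooth (hw : IsHermitian w) (a : Fin r) : SmoothFn (n := n) fun x => mu W x a := by
  intro e x h
  have h1 : ContDiffAt ℝ ∞ (fun z => ∑ I, pw W I (e.symm z)) (e x) :=
    ContDiffAt.sum fun I _ => pw_smooth W hw I e x h
  have h2 : ContDiffAt ℝ ∞ (fun z => ∑ I, pw W I (e.symm z) *
      (-(2 * Real.pi * (lamI W I a : ℝ)))) (e x) :=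
    ContDiffAt.sum fun I _ => (pw_smooth W hw I e x h).mul contDiffAt_const
  exact h2.div h1 (pw_sum_pos W hw _).ne'

lemma mu_inv (hw : IsHermitian w) (t : Fin r → ℝ) (x : Z) : mu W (T.a t x) = mu W x := by
  funext a
  unfold mu
  simp only [pw_inv W hw]

lemma ip_mu (x : Z) (ξ : Fin r → ℝ) : ip (mu W x) ξ =
    (∑ I, pw W I x * (-(2 * Real.pi * pair (lamI W I) ξ))) / ∑ I, pw W I x := by
  unfold ip mu pair
  rw [Finset.sum_div]
  simp only [Finset.sum_div, Finset.sum_mul, Finset.mul_sum, ← Finset.sum_neg_distrib]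
  rw [Finset.sum_comm]
  refine Finset.sum_congr rfl fun I _ => ?_
  refine Finset.sum_congr rfl fun a _ => ?_
  ring

/-- the scalar product of `mu x` with the isotropy algebra in terms of one nonvanishing minor -/
lemma ip_mu_eq (hw : IsHermitian w) {x : Z} {ξ : Fin r → ℝ} (hξ : ξ ∈ tx T x)
    {I : Fin n → Fin M} (hI : pw W I x ≠ 0) :
    ip (mu W x) ξ = -(2 * Real.pi * pair (lamI W I) ξ) := by
  have hx : At (chartAt (Cm n) x : Chart n Z) x := ⟨chart_mem_atlas _ _, mem_chart_source _ _⟩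
  have h0 := (mem_tx_iff_chartAt T x ξ).1 hξ
  have h1 : ∀ J, pw W J x * (-(2 * Real.pi * pair (lamI W J) ξ)) =
      pw W J x * (-(2 * Real.pi * pair (lamI W I) ξ)) := by
    intro J
    by_cases hJ : pw W J x = 0
    · rw [hJ, zero_mul, zero_mul]
    · rw [← momc_of_zero W hx h0 ((pw_ne W hw J hx).1 hJ),
        ← momc_of_zero W hx h0 ((pw_ne W hw I hx).1 hI)]
  rw [ip_mu, Finset.sum_congr rfl fun J _ => h1 J, ← Finset.sum_mul,
    mul_div_cancel_left₀ _ (pw_sum_pos W hw x).ne']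

lemma exists_pw_ne (hw : IsHermitian w) (x : Z) : ∃ I, pw W I x ≠ 0 := by
  have hx : At (chartAt (Cm n) x : Chart n Z) x := ⟨chart_mem_atlas _ _, mem_chart_source _ _⟩
  obtain ⟨I, hI⟩ := exists_tau_ne W hx
  exact ⟨I, (pw_ne W hw I hx).2 hI⟩

theorem momc_eq_ip (hw : IsHermitian w) {e : Chart n Z} {x : Z} (h : At e x) {ξ : Fin r → ℝ}
    (hξ : ξ ∈ tx T x) : momc T ξ e (e x) = ip (mu W x) ξ := by
  obtain ⟨I, hI⟩ := exists_pw_ne W hw x
  have h0 : vf T ξ e (e x) = 0 := (vf_eq_zero_iff W h ξ).2 ((mem_tx_iff T W x ξ).1 hξ)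
  rw [ip_mu_eq W hw hξ hI, momc_of_zero W h h0 ((pw_ne W hw I h).1 hI)]

lemma smoothFn_continuous {u : Z → ℝ} (hu : SmoothFn (n := n) u) : Continuous u := by
  have h1 := (smC_of_smoothFn hu).continuous
  have h2 := Complex.continuous_re.comp h1
  exact h2

lemma mu_continuous (hw : IsHermitian w) : Continuous (mu W) :=
  continuous_pi fun a => smoothFn_continuous (mu_smooth W hw a)

lemma mu_loc (hw : IsHermitian w) (x : Z) :
    ∀ᶠ y in 𝓝 x, ∀ ξ ∈ tx T y, ip (mu W y) ξ = ip (mu W x) ξ := by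
  obtain ⟨I, hI⟩ := exists_pw_ne W hw x
  have h1 : ∀ᶠ y in 𝓝 x, pw W I y ≠ 0 :=
    (smoothFn_continuous (pw_smooth W hw I)).continuousAt.eventually_ne hI
  filter_upwards [h1, tx_le_nhds T W x] with y hy hle ξ hξ
  rw [ip_mu_eq W hw hξ hy, ip_mu_eq W hw (hle hξ) hI]

/-- the critical values form a finite set -/
theorem finite_values (hw : IsHermitian w) : {u | ∃ x, mu W x = u ∧ mu W x ∈ tx T x}.Finite := by
  classical
  have h1 : (⋃ S ∈ range (tx T), ⋃ I : Fin n → Fin M,
      {u : Fin r → ℝ | u ∈ S ∧ ∀ ξ ∈ S, ip u ξ = -(2 * Real.pi * pair (lamI W I) ξ)}).Finite := by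
    refine (finite_tx T W).biUnion fun S _ => Set.finite_iUnion fun I => ?_
    refine Set.Subsingleton.finite fun u hu v hv => ?_
    exact eq_of_ip hu.1 hv.1 fun ξ hξ => by rw [hu.2 ξ hξ, hv.2 ξ hξ]
  refine h1.subset ?_
  rintro _ ⟨x, rfl, hx⟩
  obtain ⟨I, hI⟩ := exists_pw_ne W hw x
  refine Set.mem_biUnion (mem_range_self x) (Set.mem_iUnion.2 ⟨I, hx, fun ξ hξ => ?_⟩)
  exact ip_mu_eq W hw hξ hI

/-! ### the functions `q β` -/

/-- the function cutting out the zeros of the field generated by `β` -/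
def qf (β : Fin r → ℝ) (x : Z) : ℝ := ∑ i, pr (W.wt i) β ^ 2 * Complex.normSq (W.F i x)

lemma qf_nonneg (β : Fin r → ℝ) (x : Z) : 0 ≤ qf W β x :=
  Finset.sum_nonneg fun i _ => mul_nonneg (sq_nonneg _) (Complex.normSq_nonneg _)

lemma qf_eq_zero (β : Fin r → ℝ) (x : Z) : qf W β x = 0 ↔ β ∈ tx T x := by
  rw [mem_tx_iff T W]
  unfold qf
  rw [Finset.sum_eq_zero_iff_of_nonneg fun i _ =>
    mul_nonneg (sq_nonneg _) (Complex.normSq_nonneg _)]
  constructor
  · intro h i hi
    rcases mul_eq_zero.1 (h i (Finset.mem_univ i)) with h1 | h1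
    · exact pow_eq_zero_iff (two_ne_zero) |>.1 h1
    · exact absurd (Complex.normSq_eq_zero.1 h1) hi
  · intro h i _
    by_cases hi : W.F i x = 0
    · rw [hi]; simp
    · rw [h i hi]; simp

lemma qf_smooth (β : Fin r → ℝ) : SmoothFn (n := n) (qf W β) := by
  intro e x h
  refine ContDiffAt.sum fun i _ => contDiffAt_const.mul ?_
  have h5 := W.smooth i e x h
  have h6 : (fun z => Complex.normSq (W.F i (e.symm z))) =
      fun z => (W.F i (e.symm z)).re * (W.F i (e.symm z)).re +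
        (W.F i (e.symm z)).im * (W.F i (e.symm z)).im :=
    funext fun z => Complex.normSq_apply _
  rw [h6]
  have h7 : ContDiffAt ℝ ∞ (fun z => (W.F i (e.symm z)).re) (e x) :=
    Complex.reCLM.contDiff.contDiffAt.comp (e x) h5
  have h8 : ContDiffAt ℝ ∞ (fun z => (W.F i (e.symm z)).im) (e x) :=
    Complex.imCLM.contDiff.contDiffAt.comp (e x) h5
  exact (h7.mul h7).add (h8.mul h8)

lemma qf_inv (β : Fin r → ℝ) (t : Fin r → ℝ) (x : Z) : qf W β (T.a t x) = qf W β x := by
  unfold qf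
  refine Finset.sum_congr rfl fun i _ => ?_
  rw [W.law, map_mul, Complex.normSq_eq_norm_sq (ch _ _), ch_norm, one_pow, one_mul]

end Vale.Agent.P299.H582
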