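import Vale.Agent.P299.H582.Kir.Fam
import Vale.Agent.P299.H954.Holo
import Vale.Agent.P299.H956.D1.Pull

/-!
# P299, INDEX-KIRWAN: generating vector fields of a torus action
-/

open Set MeasureTheory Filter Metric
open scoped Topology ContDiff Manifold ComplexConjugate
open Vale.Agent.P272.K Vale.Agent.P299.D

set_option linter.unusedSectionVars false

noncomputable section

namespace Vale.Agent.P299.H582

variable {n r : ℕ}

section local_

variable {Φ : (Fin r → ℝ) × Cm n → ℂ} {z₀ : Cm n}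

lemma fderiv_snd_eq {p : (Fin r → ℝ) × Cm n} (h : DifferentiableAt ℝ Φ p) (u : Cm n) :
    fderiv ℝ Φ p (0, u) = fderiv ℝ (fun z => Φ (p.1, z)) p.2 u := by
  have h1 := hasFDerivAt_pd (p := p) h
  rw [h1.fderiv]
  rfl

lemma fderiv_fst_eq {p : (Fin r → ℝ) × Cm n} (h : DifferentiableAt ℝ Φ p) (ξ : Fin r → ℝ) :
    fderiv ℝ Φ p (ξ, 0) = fderiv ℝ (fun t => Φ (t, p.2)) p.1 ξ := by
  have h1 : HasFDerivAt (fun t => Φ (t, p.2)) ((fderiv ℝ Φ p).comp
      (ContinuousLinearMap.inl ℝ (Fin r → ℝ) (Cm n))) p.1 :=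
    h.hasFDerivAt.comp p.1 (hasFDerivAt_prodMk_left p.1 p.2)
  rw [h1.fderiv]
  rfl

lemma hasFDerivAt_slice {E : Type*} [NormedAddCommGroup E] [NormedSpace ℝ E]
    {Ψ : (Fin r → ℝ) × Cm n → E} {t : Fin r → ℝ} {z : Cm n} (h : DifferentiableAt ℝ Ψ (t, z)) :
    HasFDerivAt (fun s => Ψ (s, z)) ((fderiv ℝ Ψ (t, z)).comp
      (ContinuousLinearMap.inl ℝ (Fin r → ℝ) (Cm n))) t :=
  HasFDerivAt.comp (g := Ψ) t (h.hasFDerivAt) (hasFDerivAt_prodMk_left t z)

/-- the derivative with respect to real parameters of a holomorphic function is holomorphic -/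
lemma holo_partial (h : ∀ᶠ q in 𝓝 ((0 : Fin r → ℝ), z₀), ContDiffAt ℝ ∞ Φ q)
    (hh : ∀ᶠ q in 𝓝 ((0 : Fin r → ℝ), z₀), DifferentiableAt ℂ (fun z => Φ (q.1, z)) q.2)
    (ξ : Fin r → ℝ) : ∀ᶠ z in 𝓝 z₀, DifferentiableAt ℝ (fun z => fderiv ℝ Φ (0, z) (ξ, 0)) z ∧
      ∀ l, dzb l (fun z => fderiv ℝ Φ (0, z) (ξ, 0)) z = 0 := by
  have hcont : Tendsto (fun z : Cm n => ((0 : Fin r → ℝ), z)) (𝓝 z₀) (𝓝 (0, z₀)) :=
    (continuous_const.prodMk continuous_id).tendsto z₀
  filter_upwards [hcont.eventually h.eventually_nhds, hcont.eventually hh.eventually_nhds]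
    with z hz hz'
  have hΦ : ContDiffAt ℝ ∞ Φ (0, z) := hz.self_of_nhds
  have hd : ContDiffAt ℝ ∞ (fderiv ℝ Φ) (0, z) := hΦ.fderiv_right (m := ∞) (by simp)
  have hdd : HasFDerivAt (fderiv ℝ Φ) (fderiv ℝ (fderiv ℝ Φ) (0, z)) (0, z) :=
    (hd.differentiableAt (by simp)).hasFDerivAt
  have hG : HasFDerivAt (fun z => fderiv ℝ Φ (0, z) (ξ, 0))
      (((ContinuousLinearMap.apply ℝ ℂ ((ξ, 0) : (Fin r → ℝ) × Cm n)).comp
        (fderiv ℝ (fderiv ℝ Φ) (0, z))).comp (ContinuousLinearMap.inr ℝ (Fin r → ℝ) (Cm n))) z := by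
    have h1 : HasFDerivAt (fun q => fderiv ℝ Φ q (ξ, 0))
        ((ContinuousLinearMap.apply ℝ ℂ ((ξ, 0) : (Fin r → ℝ) × Cm n)).comp
        (fderiv ℝ (fderiv ℝ Φ) (0, z))) (0, z) :=
      (ContinuousLinearMap.apply ℝ ℂ ((ξ, 0) : (Fin r → ℝ) × Cm n)).hasFDerivAt.comp (0, z) hdd
    exact h1.comp z (hasFDerivAt_prodMk_right 0 z)
  refine ⟨hG.differentiableAt, fun l => ?_⟩
  have hsymm : IsSymmSndFDerivAt ℝ Φ (0, z) := hΦ.isSymmSndFDerivAt (by
    simp only [minSmoothness_of_isRCLikeNormedField]; exact WithTop.coe_le_coe.2 le_top)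
  have key : ∀ u : Cm n, fderiv ℝ (fun z => fderiv ℝ Φ (0, z) (ξ, 0)) z u =
      fderiv ℝ (fderiv ℝ Φ) (0, z) (ξ, 0) (0, u) := by
    intro u
    rw [hG.fderiv, hsymm.eq]
    rfl
  have hI : ∀ u : Cm n, fderiv ℝ (fderiv ℝ Φ) (0, z) (ξ, 0) (0, Complex.I • u) =
      Complex.I * fderiv ℝ (fderiv ℝ Φ) (0, z) (ξ, 0) (0, u) := by
    intro u
    have h2 : (fun q => fderiv ℝ Φ q (0, Complex.I • u)) =ᶠ[𝓝 (0, z)]
        fun q => Complex.I * fderiv ℝ Φ q (0, u) := by
      filter_upwards [hz, hz'] with q hq hq'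
      have hqd : DifferentiableAt ℝ Φ q := hq.differentiableAt (by simp)
      rw [fderiv_snd_eq hqd, fderiv_snd_eq hqd]
      have h3 : fderiv ℝ (fun z => Φ (q.1, z)) q.2 =
          (fderiv ℂ (fun z => Φ (q.1, z)) q.2).restrictScalars ℝ :=
        (hq'.hasFDerivAt.restrictScalars ℝ).fderiv
      rw [h3]
      simp only [ContinuousLinearMap.coe_restrictScalars', map_smul, smul_eq_mul]
    have e1 : HasFDerivAt (fun q => fderiv ℝ Φ q (0, Complex.I • u))
        ((ContinuousLinearMap.apply ℝ ℂ ((0, Complex.I • u) : (Fin r → ℝ) × Cm n)).comp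
        (fderiv ℝ (fderiv ℝ Φ) (0, z))) (0, z) :=
      (ContinuousLinearMap.apply ℝ ℂ ((0, Complex.I • u) : (Fin r → ℝ) × Cm n)).hasFDerivAt.comp
        (0, z) hdd
    have e2 : HasFDerivAt (fun q => fderiv ℝ Φ q (0, u))
        ((ContinuousLinearMap.apply ℝ ℂ ((0, u) : (Fin r → ℝ) × Cm n)).comp
        (fderiv ℝ (fderiv ℝ Φ) (0, z))) (0, z) :=
      (ContinuousLinearMap.apply ℝ ℂ ((0, u) : (Fin r → ℝ) × Cm n)).hasFDerivAt.comp
        (0, z) hdd
    have e3 := (e1.congr_of_eventuallyEq h2.symm).unique (e2.const_mul Complex.I)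
    exact DFunLike.congr_fun e3 (ξ, 0)
  unfold dzb
  have hs : (Pi.single l Complex.I : Cm n) = Complex.I • (Pi.single l 1 : Cm n) := by
    rw [← Pi.single_smul]; simp
  rw [hs, key, key, hI]
  linear_combination (fderiv ℝ (fderiv ℝ Φ) (0, z) (ξ, 0) (0, Pi.single l 1)) / 2 * Complex.I_mul_I

end local_

variable {Z : Type} [TopologicalSpace Z] [ChartedSpace (Cm n) Z] {w : FormM n Z}

/-- the `(1,0)` part (in the chart `e`) of the vector field generated by `ξ` -/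
def vf (T : TorusAct r n Z w) (ξ : Fin r → ℝ) : VField n Z := fun e z =>
  fderiv ℝ (fun t : Fin r → ℝ => e (T.a t (e.symm z))) 0 ξ

/-- pairing of an integral weight with an element of `ℝ^r` -/
def pr (l : Fin r → ℤ) (ξ : Fin r → ℝ) : ℝ := ∑ i, (l i : ℝ) * ξ i

lemma pr_add_right (l : Fin r → ℤ) (ξ η : Fin r → ℝ) : pr l (ξ + η) = pr l ξ + pr l η := by
  simp [pr, mul_add, Finset.sum_add_distrib]

lemma pr_smul_right (l : Fin r → ℤ) (c : ℝ) (ξ : Fin r → ℝ) : pr l (c • ξ) = c * pr l ξ := by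
  simp only [pr, Pi.smul_apply, smul_eq_mul, Finset.mul_sum]
  exact Finset.sum_congr rfl fun i _ => by ring

lemma pr_add_left (l m : Fin r → ℤ) (ξ : Fin r → ℝ) : pr (l + m) ξ = pr l ξ + pr m ξ := by
  simp [pr, add_mul, Finset.sum_add_distrib]

lemma pr_neg_left (l : Fin r → ℤ) (ξ : Fin r → ℝ) : pr (-l) ξ = -pr l ξ := by
  simp [pr, Finset.sum_neg_distrib]

lemma pr_sum_left {ι : Type*} (s : Finset ι) (l : ι → Fin r → ℤ) (ξ : Fin r → ℝ) :
    pr (∑ k ∈ s, l k) ξ = ∑ k ∈ s, pr (l k) ξ := by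
  simp only [pr, Finset.sum_apply, Int.cast_sum, Finset.sum_mul]
  exact Finset.sum_comm

lemma fderiv_ch_zero (l : Fin r → ℤ) (ξ : Fin r → ℝ) :
    fderiv ℝ (ch l) 0 ξ = 2 * Real.pi * Complex.I * (pr l ξ : ℂ) := by
  rw [(hasFDerivAt_ch_zero l).fderiv]
  simp only [sum_apply, smul_apply, ContinuousLinearMap.comp_apply,
    ContinuousLinearMap.proj_apply, Complex.ofRealCLM_apply, smul_eq_mul, pr, Complex.ofReal_sum,
    Complex.ofReal_mul, Complex.ofReal_intCast, Finset.mul_sum]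
  exact Finset.sum_congr rfl fun i _ => by ring

section
variable (T : TorusAct r n Z w)

lemma vf_add (ξ η : Fin r → ℝ) (e : Chart n Z) (z : Cm n) :
    vf T (ξ + η) e z = vf T ξ e z + vf T η e z := by simp [vf]

lemma vf_smul (c : ℝ) (ξ : Fin r → ℝ) (e : Chart n Z) (z : Cm n) :
    vf T (c • ξ) e z = c • vf T ξ e z := by simp [vf]

lemma vf_sum (ξ : Fin r → ℝ) (e : Chart n Z) (z : Cm n) :
    vf T ξ e z = ∑ a, ξ a • vf T (Pi.single a 1) e z := by
  have h : ξ = ∑ a, ξ a • (Pi.single a 1 : Fin r → ℝ) := by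
    ext i
    simp [Finset.sum_apply, Pi.single_apply]
  conv_lhs => rw [h]
  unfold vf
  rw [map_sum]
  simp only [map_smul]

lemma act_smooth {e e' : Chart n Z} {x : Z} (h : At e x) (h' : At e' x) :
    ContDiffAt ℝ ∞ (fun q : (Fin r → ℝ) × Cm n => e' (T.a q.1 (e.symm q.2))) (0, e x) :=
  T.smooth 0 x e e' h (by rw [T.zero]; exact h')

lemma act_smooth_nhds {e e' : Chart n Z} {x : Z} (h : At e x) (h' : At e' x) :
    ∀ᶠ q in 𝓝 ((0 : Fin r → ℝ), e x),
      ContDiffAt ℝ ∞ (fun q : (Fin r → ℝ) × Cm n => e' (T.a q.1 (e.symm q.2))) q := by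
  have h1 : ∀ᶠ q : (Fin r → ℝ) × Cm n in 𝓝 (0, e x), q.2 ∈ e.target :=
    continuousAt_snd.eventually (e.open_target.mem_nhds h.mem_target)
  have h2 : ∀ᶠ q : (Fin r → ℝ) × Cm n in 𝓝 (0, e x), T.a q.1 (e.symm q.2) ∈ e'.source := by
    refine (act_cont_at T h.mem_target 0).eventually_mem (e'.open_source.mem_nhds ?_)
    rw [h.left_inv, T.zero]
    exact h'.2
  filter_upwards [h1, h2] with q hq1 hq2
  have h3 := T.smooth q.1 (e.symm q.2) e e' (At.of_target h.1 hq1) ⟨h'.1, hq2⟩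
  rwa [e.right_inv hq1] at h3

/-- the chain rule along orbits -/
lemma fderiv_orbit {F : Z → ℂ} (hF : SmC (n := n) F) {e : Chart n Z} {x : Z} (h : At e x)
    (ξ : Fin r → ℝ) : fderiv ℝ (fun t => F (T.a t x)) 0 ξ =
      fderiv ℝ (fun z => F (e.symm z)) (e x) (vf T ξ e (e x)) := by
  have h1 : (fun t => F (T.a t x)) =ᶠ[𝓝 0] fun t => F (e.symm (e (T.a t x))) := by
    have h2 : ∀ᶠ t in 𝓝 (0 : Fin r → ℝ), T.a t x ∈ e.source := by
      refine (continuous_orbit T x).continuousAt.eventually_mem (e.open_source.mem_nhds ?_)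
      rw [T.zero]; exact h.2
    filter_upwards [h2] with t ht
    rw [e.left_inv ht]
  have h3 : DifferentiableAt ℝ (fun t : Fin r → ℝ => e (T.a t x)) 0 := by
    have h4 := (act_smooth T h h).differentiableAt (by simp)
    have h5 := hasFDerivAt_slice h4
    simp only [h.left_inv] at h5
    exact h5.differentiableAt
  have h0 : e (T.a 0 x) = e x := by rw [T.zero]
  have h7 : DifferentiableAt ℝ (fun z => F (e.symm z)) (e (T.a 0 x)) := by
    rw [h0]; exact (hF e x h).differentiableAt (by simp)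
  have h8 := (h7.hasFDerivAt.comp (0 : Fin r → ℝ) h3.hasFDerivAt)
  rw [h1.fderiv_eq]
  have h9 : (fun t => F (e.symm (e (T.a t x)))) = (fun z => F (e.symm z)) ∘ fun t => e (T.a t x) := rfl
  rw [h9, h8.fderiv, h0]
  unfold vf
  simp only [h.left_inv]
  rfl

lemma fderiv_weight {F : Z → ℂ} (hF : SmC (n := n) F) {l : Fin r → ℤ}
    (hl : ∀ t x, F (T.a t x) = ch l t * F x) {e : Chart n Z} {x : Z} (h : At e x)
    (ξ : Fin r → ℝ) : fderiv ℝ (fun z => F (e.symm z)) (e x) (vf T ξ e (e x)) =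
      2 * Real.pi * Complex.I * (pr l ξ : ℂ) * F x := by
  rw [← fderiv_orbit T hF h]
  have h1 : (fun t => F (T.a t x)) = fun t => ch l t * F x := funext fun t => hl t x
  rw [h1]
  have h2 := ((hasFDerivAt_ch_zero l).mul_const (F x)).fderiv
  rw [h2, smul_apply, ← (hasFDerivAt_ch_zero l).fderiv, fderiv_ch_zero, smul_eq_mul]
  ring

end

section
variable {T : TorusAct r n Z w} {M : ℕ} (W : WF T M)

/-- the field `ξ` vanishes at `x` iff `ξ` is killed by the weights of the functions which do not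
vanish at `x` -/
theorem vf_eq_zero_iff {e : Chart n Z} {x : Z} (h : At e x) (ξ : Fin r → ℝ) :
    vf T ξ e (e x) = 0 ↔ ∀ i, W.F i x ≠ 0 → pr (W.wt i) ξ = 0 := by
  constructor
  · intro h0 i hi
    have h1 := fderiv_weight T (W.smooth i) (W.law i) h ξ
    rw [h0, map_zero] at h1
    have h2 : (2 * Real.pi * Complex.I : ℂ) ≠ 0 := Complex.two_pi_I_ne_zero
    rcases mul_eq_zero.1 h1.symm with h3 | h3
    · rcases mul_eq_zero.1 h3 with h4 | h4
      · exact absurd h4 h2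
      · exact_mod_cast h4
    · exact absurd h3 hi
  · intro h0
    refine W.imm e x h _ fun i => ?_
    rw [fderiv_weight T (W.smooth i) (W.law i) h ξ]
    by_cases hi : W.F i x = 0
    · rw [hi, mul_zero]
    · rw [h0 i hi]; simp

end

variable (T : TorusAct r n Z w)

/-- the isotropy algebra at `x` -/
def tx (x : Z) : Submodule ℝ (Fin r → ℝ) :=
  LinearMap.ker (fderiv ℝ (fun t : Fin r → ℝ => (chartAt (Cm n) x : Chart n Z)
    (T.a t x)) 0 : (Fin r → ℝ) →ₗ[ℝ] Cm n)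

lemma mem_tx_iff_chartAt (x : Z) (ξ : Fin r → ℝ) :
    ξ ∈ tx T x ↔ vf T ξ (chartAt (Cm n) x) (chartAt (Cm n) x x) = 0 := by
  unfold tx vf
  rw [LinearMap.mem_ker]
  simp only [(chartAt (Cm n) x).left_inv (mem_chart_source _ x)]
  rfl

theorem mem_tx_iff {M : ℕ} (W : WF T M) (x : Z) (ξ : Fin r → ℝ) :
    ξ ∈ tx T x ↔ ∀ i, W.F i x ≠ 0 → pr (W.wt i) ξ = 0 := by
  rw [mem_tx_iff_chartAt]
  exact vf_eq_zero_iff W ⟨chart_mem_atlas _ _, mem_chart_source _ _⟩ ξ

/-- there are finitely many isotropy algebras -/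
theorem finite_tx {M : ℕ} (W : WF T M) : (Set.range (tx T)).Finite := by
  classical
  refine (Set.finite_range fun J : Finset (Fin M) => (⨅ i ∈ J, LinearMap.ker
    ({ toFun := fun ξ => pr (W.wt i) ξ
       map_add' := fun a b => pr_add_right _ a b
       map_smul' := fun c a => pr_smul_right _ c a } : (Fin r → ℝ) →ₗ[ℝ] ℝ) :
       Submodule ℝ (Fin r → ℝ))).subset ?_
  rintro _ ⟨x, rfl⟩
  refine ⟨Finset.univ.filter fun i => W.F i x ≠ 0, ?_⟩
  ext ξ
  rw [mem_tx_iff T W]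
  simp [Submodule.mem_iInf]

/-- semicontinuity of the isotropy algebra -/
theorem tx_le_nhds {M : ℕ} (W : WF T M) (x : Z) : ∀ᶠ y in 𝓝 x, tx T y ≤ tx T x := by
  have h1 : ∀ᶠ y in 𝓝 x, ∀ i, W.F i x ≠ 0 → W.F i y ≠ 0 := by
    rw [Filter.eventually_all]
    intro i
    by_cases hi : W.F i x = 0
    · exact Eventually.of_forall fun y h => absurd hi h
    · filter_upwards [(W.smooth i).continuous.continuousAt.eventually_ne hi] with y hy _ using hy
  filter_upwards [h1] with y hy ξ hξ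
  rw [mem_tx_iff T W] at hξ ⊢
  exact fun i hi => hξ i (hy i hi)

variable [IsManifold 𝓘(ℂ, Cm n) ω Z]

/-- for small times the action is holomorphic in the chart -/
lemma act_holo_nhds {e e' : Chart n Z} {x : Z} (h : At e x) (h' : At e' x) (p : Fin n) :
    ∀ᶠ q in 𝓝 ((0 : Fin r → ℝ), e x),
      DifferentiableAt ℂ (fun z => e' (T.a q.1 (e.symm z)) p) q.2 := by
  have h1 : ∀ᶠ q : (Fin r → ℝ) × Cm n in 𝓝 (0, e x), q.2 ∈ e.target :=
    continuousAt_snd.eventually (e.open_target.mem_nhds h.mem_target)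
  have h2 : ∀ᶠ q : (Fin r → ℝ) × Cm n in 𝓝 (0, e x), T.a q.1 (e.symm q.2) ∈ e'.source := by
    refine (act_cont_at T h.mem_target 0).eventually_mem (e'.open_source.mem_nhds ?_)
    rw [h.left_inv, T.zero]
    exact h'.2
  filter_upwards [h1, h2] with q hq1 hq2
  have h3 := H956.rep_hol (f := T.a q.1) (y := e.symm q.2) ((T.hol q.1) _)
    (At.of_target h.1 hq1) (e' := e') ⟨h'.1, hq2⟩
  rw [e.right_inv hq1] at h3
  have h4 : DifferentiableAt ℂ (fun z => e' (T.a q.1 (e.symm z))) q.2 :=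
    h3.differentiableAt (by simp)
  exact differentiableAt_pi.1 h4 p

lemma vf_eventuallyEq {e : Chart n Z} {x : Z} (h : At e x) (ξ : Fin r → ℝ) (p : Fin n) :
    (fun z => vf T ξ e z p) =ᶠ[𝓝 (e x)] fun z =>
      fderiv ℝ (fun q : (Fin r → ℝ) × Cm n => e (T.a q.1 (e.symm q.2)) p) (0, z) (ξ, 0) := by
  have hcont : Tendsto (fun z : Cm n => ((0 : Fin r → ℝ), z)) (𝓝 (e x)) (𝓝 (0, e x)) :=
    (continuous_const.prodMk continuous_id).tendsto (e x)
  filter_upwards [hcont.eventually (act_smooth_nhds T h h)] with z hz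
  have h1 : DifferentiableAt ℝ (fun q : (Fin r → ℝ) × Cm n => e (T.a q.1 (e.symm q.2))) (0, z) :=
    hz.differentiableAt (by simp)
  rw [fderiv_fst_eq (differentiableAt_pi.1 h1 p)]
  unfold vf
  have h2 : DifferentiableAt ℝ (fun t : Fin r → ℝ => e (T.a t (e.symm z))) 0 :=
    (hasFDerivAt_slice h1).differentiableAt
  rw [(hasFDerivAt_pi'.1 h2.hasFDerivAt p).fderiv]
  rfl

theorem vf_smooth {e : Chart n Z} {x : Z} (h : At e x) (ξ : Fin r → ℝ) :
    ContDiffAt ℝ ∞ (vf T ξ e) (e x) := by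
  rw [contDiffAt_pi]
  intro p
  refine ContDiffAt.congr_of_eventuallyEq ?_ (vf_eventuallyEq T h ξ p)
  have h1 := act_smooth T h h
  have h2 := (contDiffAt_pi.1 h1 p).fderiv_right (m := ∞) (by simp)
  have h3 : ContDiffAt ℝ ∞ (fun z : Cm n => ((0 : Fin r → ℝ), z)) (e x) :=
    contDiffAt_const.prodMk contDiffAt_id
  exact (h2.comp (e x) h3).clm_apply contDiffAt_const

theorem vf_analytic {e : Chart n Z} {x : Z} (h : At e x) (ξ : Fin r → ℝ) :
    AnalyticAt ℂ (vf T ξ e) (e x) := by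
  refine AnalyticAt.pi fun p => ?_
  have h1 := holo_partial (Φ := fun q : (Fin r → ℝ) × Cm n => e (T.a q.1 (e.symm q.2)) p)
    (z₀ := e x) (by
      filter_upwards [act_smooth_nhds T h h] with q hq
      exact contDiffAt_pi.1 hq p) (act_holo_nhds T h h p) ξ
  exact (H954.analyticAt_of_dzb h1).congr (vf_eventuallyEq T h ξ p).symm

theorem vf_change {e e' : Chart n Z} {x : Z} (h : At e x) (h' : At e' x) (ξ : Fin r → ℝ) :
    vf T ξ e' (e' x) = (jacM e e' x).mulVec (vf T ξ e (e x)) := by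
  have h1 : (fun t : Fin r → ℝ => e' (T.a t x)) =ᶠ[𝓝 0]
      fun t => e' (e.symm (e (T.a t x))) := by
    have h2 : ∀ᶠ t in 𝓝 (0 : Fin r → ℝ), T.a t x ∈ e.source := by
      refine (continuous_orbit T x).continuousAt.eventually_mem (e.open_source.mem_nhds ?_)
      rw [T.zero]; exact h.2
    filter_upwards [h2] with t ht
    rw [e.left_inv ht]
  have h3 : DifferentiableAt ℝ (fun t : Fin r → ℝ => e (T.a t x)) 0 := by
    have h4 := (act_smooth T h h).differentiableAt (by simp)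
    have h5 := hasFDerivAt_slice h4
    simp only [h.left_inv] at h5
    exact h5.differentiableAt
  have h0 : e (T.a 0 x) = e x := by rw [T.zero]
  have hτ := transition_differentiableAt h h'
  have h7 : DifferentiableAt ℝ (fun z => e' (e.symm z)) (e (T.a 0 x)) := by
    rw [h0]; exact hτ.restrictScalars ℝ
  have h8 := (h7.hasFDerivAt.comp (0 : Fin r → ℝ) h3.hasFDerivAt)
  have h10 : vf T ξ e (e x) = fderiv ℝ (fun t : Fin r → ℝ => e (T.a t x)) 0 ξ := by
    unfold vf; simp only [h.left_inv]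
  unfold vf at h10 ⊢
  simp only [h'.left_inv]
  rw [h1.fderiv_eq]
  have h9 : (fun t => e' (e.symm (e (T.a t x)))) = (fun z => e' (e.symm z)) ∘
      fun t => e (T.a t x) := rfl
  rw [h9, h8.fderiv, h0]
  simp only [h.left_inv]
  ext p
  have h11 : fderiv ℝ (fun z => e' (e.symm z)) (e x) =
      (fderiv ℂ (fun z => e' (e.symm z)) (e x)).restrictScalars ℝ :=
    (hτ.hasFDerivAt.restrictScalars ℝ).fderiv
  rw [ContinuousLinearMap.comp_apply, h11, ContinuousLinearMap.coe_restrictScalars', jacM_eq,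
    jmat_mulVec hτ]
  rfl

theorem vf_isHolVF (ξ : Fin r → ℝ) : IsHolVF (vf T ξ) where
  holo _ _ h := vf_analytic T h ξ
  change _ _ _ h h' := vf_change T h h' ξ

end Vale.Agent.P299.H582
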